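import Vale.Agent.P216.H550.GenD3
import Vale.Agent.P216.H894.FamE2
import Vale.Agent.P216.H269D.Main

/-!
# P216-D, [E2-FAM]: the step hypotheses

`stepG_of_omegaC`, `stepG_of_omega`: the cohomology of the based Moore loops consists of step
modules.  `stepX_of_omegaC`, `stepX_of_omega`: the same for the free Moore loops of a compact
space dominated by a finite complex; `..._mfd`: for a compact manifold.
-/

set_option linter.all false

open Set BoundedContinuousFunction Manifold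
open scoped ContDiff

namespace Vale.Agent.P216.H651

open Vale.Agent.P216.AS Vale.Agent.P216.H901 Vale.Agent.P216.PS Vale.Agent.P216.MV337
open Vale.Agent.P216.H754B Vale.Agent.P216.H894 Vale.Agent.P216.H83 Vale.Agent.P216.B64
open Vale.Agent.P216.H285 Vale.Agent.P216.H774 Vale.Agent.P216.H133C Vale.Agent.P216.H550

section Based

variable {M : Type} [MetricSpace M] {x₀ : M} {q N m : ℕ} {B : ℝ} {k : Type} [Field k]

/-- `H^q(P x₀ x₀ t) ≅ H^q(P x₀ x₀ t, ∅)`. -/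
noncomputable def isoPr (k : Type) [Field k] (x₀ : M) (r : ℕ) :
    PMIso (GP k x₀ r) (pmX k (mono_P x₀) r) where
  e t ht := absE k (P x₀ x₀ t) r
  nat s t hs ht h x := absE_nat k (P_mono h) r x

/-- The based loops, from `OmegaOutC`, with the constants. -/
theorem stepG_of_omegaC' (O : OmegaOutC M q N x₀ B k) (hB : 0 < B) (hqN : q < N) :
    ∃ W : ℕ → ℝ, Wall W (2 * B) ∧ ∀ n, (GP k x₀ n).Step (W n) (3 * B) :=
  ⟨(slotsOf O hB.le).T, (slotsOf O hB.le).wall (by omega) hB.le, fun n =>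
    pmIso_step (isoPr k x₀ n) ((slotsOf O hB.le).step hqN hB n)⟩

/-- The based loops, from `OmegaOut`, with the constants. -/
theorem stepG_of_omega' (O : OmegaOut M m x₀ B k) (hB : 0 < B) (hm : 0 < m) :
    ∃ W : ℕ → ℝ, Wall W B ∧ ∀ n, (GP k x₀ n).Step (W n) B :=
  ⟨(oneOf O hB.le).T, (oneOf O hB.le).wall hm hB.le, fun n =>
    pmIso_step (isoPr k x₀ n) ((oneOf O hB.le).step hm hB n)⟩

/-- **(hG), from `OmegaOutC`.** -/
theorem stepG_of_omegaC (O : OmegaOutC M q N x₀ B k) (hB : 0 < B) (hqN : q < N) (n : ℕ) :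
    ∃ T C, 0 ≤ T ∧ 0 < C ∧ (GP k x₀ n).Step T C := by
  obtain ⟨W, hW, h⟩ := stepG_of_omegaC' O hB hqN
  exact ⟨W n, 3 * B, hW.nonneg n, by linarith, h n⟩

/-- **(hG), from `OmegaOut`.** -/
theorem stepG_of_omega (O : OmegaOut M m x₀ B k) (hB : 0 < B) (hm : 0 < m) (n : ℕ) :
    ∃ T C, 0 ≤ T ∧ 0 < C ∧ (GP k x₀ n).Step T C := by
  obtain ⟨W, hW, h⟩ := stepG_of_omega' O hB hm
  exact ⟨W n, B, hW.nonneg n, hB, h n⟩

end Based

section Free

variable {M : Type} [MetricSpace M] [CompactSpace M] [PathConnectedSpace M] {x₀ : M}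
  {q N m : ℕ} {B : ℝ} {k : Type} [Field k]

/-- **(hX), from `OmegaOutC`** and a domination. -/
theorem stepX_of_omegaC {ρ : ℝ} (hρ : 0 < ρ) (hU : LS.UniqSeg M ρ) {V : Type}
    [NormedAddCommGroup V] [NormedSpace ℝ V] (T : Geometry.SimplicialComplex ℝ V)
    (hT : T.faces.Finite) (i : C(M, T.space)) (r : C(T.space, M))
    (hri : (ContinuousMap.id M).Homotopic (r.comp i)) (h2 : (2 : k) ≠ 0)
    (O : OmegaOutC M q N x₀ B k) (hB : 0 < B) (hqN : q < N) (n : ℕ) :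
    ∃ T C, 0 ≤ T ∧ 0 < C ∧ (XP k M n).Step T C := by
  obtain ⟨C, hC, H⟩ := exists_stepFL hρ hU T hT i r hri x₀ hB
  obtain ⟨W, hW, -, h⟩ := H k h2 q N hqN O
  exact ⟨W n, C, hW.nonneg n, hC, h n⟩

/-- **(hX), from `OmegaOut`** and a domination. -/
theorem stepX_of_omega {ρ : ℝ} (hρ : 0 < ρ) (hU : LS.UniqSeg M ρ) {V : Type}
    [NormedAddCommGroup V] [NormedSpace ℝ V] (T : Geometry.SimplicialComplex ℝ V)
    (hT : T.faces.Finite) (i : C(M, T.space)) (r : C(T.space, M))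
    (hri : (ContinuousMap.id M).Homotopic (r.comp i)) (h2 : (2 : k) ≠ 0)
    (O : OmegaOut M m x₀ B k) (hB : 0 < B) (hm : 0 < m) (n : ℕ) :
    ∃ T C, 0 ≤ T ∧ 0 < C ∧ (XP k M n).Step T C := by
  obtain ⟨C, hC, H⟩ := exists_stepFL1 hρ hU T hT i r hri x₀ hB
  obtain ⟨W, hW, -, h⟩ := H k h2 m hm O
  exact ⟨W n, C, hW.nonneg n, hC, h n⟩

/-- **(hX) for compact manifolds, from `OmegaOutC`.** -/
theorem stepX_of_omegaC_mfd (E : Type*) [NormedAddCommGroup E] [NormedSpace ℝ E]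
    [FiniteDimensional ℝ E] [ChartedSpace E M] [IsManifold 𝓘(ℝ, E) ∞ M] {ρ : ℝ} (hρ : 0 < ρ)
    (hU : LS.UniqSeg M ρ) (h2 : (2 : k) ≠ 0) (O : OmegaOutC M q N x₀ B k) (hB : 0 < B)
    (hqN : q < N) (n : ℕ) : ∃ T C, 0 ≤ T ∧ 0 < C ∧ (XP k M n).Step T C := by
  obtain ⟨N', T, i, r, hT, hri⟩ := H269D.exists_dom_manifold E M hρ hU
  exact stepX_of_omegaC hρ hU T hT i r hri h2 O hB hqN n

/-- **(hX) for compact manifolds, from `OmegaOut`.** -/
theorem stepX_of_omega_mfd (E : Type*) [NormedAddCommGroup E] [NormedSpace ℝ E]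
    [FiniteDimensional ℝ E] [ChartedSpace E M] [IsManifold 𝓘(ℝ, E) ∞ M] {ρ : ℝ} (hρ : 0 < ρ)
    (hU : LS.UniqSeg M ρ) (h2 : (2 : k) ≠ 0) (O : OmegaOut M m x₀ B k) (hB : 0 < B)
    (hm : 0 < m) (n : ℕ) : ∃ T C, 0 ≤ T ∧ 0 < C ∧ (XP k M n).Step T C := by
  obtain ⟨N', T, i, r, hT, hri⟩ := H269D.exists_dom_manifold E M hρ hU
  exact stepX_of_omega hρ hU T hT i r hri h2 O hB hm n

end Free

end Vale.Agent.P216.H651

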