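import Vale.Agent.P216.H651.Two
import Vale.Agent.P216.B609.Base0
import Vale.Agent.P216.B609.Sheet
import Vale.Agent.P216.DV706.TInst
import Vale.Agent.P216.GM.TW

/-!
# P216, the inputs of the trivial double cover over one arbitrary field

`FinAt` (finiteness at all regular levels), the level bound and the bounded finite bars for a
metric on a manifold homeomorphic to a sphere, for every field (`F₂` included).
-/

open Set Topology
open Module (finrank)

namespace Vale.Agent.P216.H651

open GM B609 Vale.Agent.P216.H288 Vale.Agent.P216.H494 Vale.Agent.P216.L250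

variable {M : Type} [MetricSpace M]

/-- **BASE0**, for every field. -/
theorem baseFinK (k : Type) [Field k] [CompactSpace M] (G : GeoList M)
    (hD : DescentStmt (Hol.triv : Hol M) G) {n : ℕ}
    (e : M ≃ₜ Metric.sphere (0 : EuclideanSpace ℝ (Fin (n + 1))) 1) :
    (mkGSys Hol.triv G hD).BaseFinK k := by
  obtain ⟨s₀, h0, h1, h⟩ := base0 G hD e
  refine ⟨s₀, h0, h1, fun q => (h k q).1, n + 1, fun q hq => ?_⟩
  exact (h k q).2 (by omega) (by omega)

/-- finiteness at all regular levels, for every field. -/
theorem finAtK (k : Type) [Field k] [CompactSpace M] {G : GeoList M} {hD : DescentStmt (Hol.triv : Hol M) G}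
    (hL : (mkGSys Hol.triv G hD).LevelBoundK k) (h0 : (mkGSys Hol.triv G hD).BaseFinK k) :
    RotS.FinAt (mkGSys Hol.triv G hD) k := fun s hs hsc =>
  GSys.finite_of_levelBoundK hL h0 s hs hsc

end Vale.Agent.P216.H651
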