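import Vale.Agent.P216.AS.End707

/-!
# The cohomology of the pair `(X t, X s)` with the reversal (the `H` part of `Rel2`)

Any field `k`, any group order `p` (`p = 4` for Theorem C).  `N n = (S.Q k p hp h).HH n`,
`H t n = S.V k t n`.
-/

open Set Topology

namespace Vale.Agent.P216.GSys

open AS AS.GCx.Pair

variable {Λ : Type} [PseudoMetricSpace Λ] (S : GSys Λ) (k : Type) [Field k] (p : ℕ) (hp : 0 < p)
  {s t : ℝ} (h : s ≤ t)

/-- restriction `H (X t) → H (X s)` -/
def relRes (n : ℕ) : (S.P k p hp t).HH n →ₗ[k] (S.P k p hp s).HH n :=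
  AS.res (S.mono s t h) n

/-- `H (X t, X s) → H (X t)` -/
def relJ (n : ℕ) : (S.Q k p hp h).HH n →ₗ[k] (S.P k p hp t).HH n :=
  Hinc (S := (S.Q k p hp h).S) (T := (S.Q k p hp h).T) (S' := (S.P k p hp t).S)
    (T' := (S.P k p hp t).T) Zr_le_Cc le_rfl n

/-- `H (X t) → H (X s)`, the target in the world `X t` -/
def relResW (n : ℕ) : (S.P k p hp t).HH n →ₗ[k] (S.W k p hp h).HH n :=
  Hinc (S := (S.P k p hp t).S) (T := (S.P k p hp t).T) (S' := (S.W k p hp h).S)
    (T' := (S.W k p hp h).T) le_rfl (Zr_anti le_rfl (S.mono s t h)) n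

/-- change of world -/
noncomputable def eqW (n : ℕ) : (S.W k p hp h).HH n ≃ₗ[k] (S.P k p hp s).HH n :=
  LinearEquiv.ofBijective _ (S.W_bijective h n)

/-- connecting map in the world `X t` -/
def delW (n : ℕ) : (S.W k p hp h).HH n →ₗ[k] (S.Q k p hp h).HH (n + 1) :=
  Hdel (S.P k p hp t).S (S.W k p hp h).T (S.P k p hp t).T n

/-- connecting map `H (X s) → H (X t, X s)` -/
noncomputable def relDel (n : ℕ) : (S.P k p hp s).HH n →ₗ[k] (S.Q k p hp h).HH (n + 1) :=
  S.delW k p hp h n ∘ₗ (S.eqW k p hp h n).symm.toLinearMap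

theorem eqW_relResW (n : ℕ) (x : (S.P k p hp t).HH n) :
    S.eqW k p hp h n (S.relResW k p hp h n x) = S.relRes k p hp h n x := by
  obtain ⟨c, hc, rfl⟩ := H.exists_mk x
  rfl

theorem relDel_eqW (n : ℕ) (x : (S.W k p hp h).HH n) :
    S.relDel k p hp h n (S.eqW k p hp h n x) = S.delW k p hp h n x :=
  congrArg (S.delW k p hp h n) ((S.eqW k p hp h n).symm_apply_apply x)

theorem relJ_zero_injective : Function.Injective (S.relJ k p hp h 0) :=
  inc_zero_injective (T := (S.Q k p hp h).T) Zr_le_Cc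

theorem relExact1 (n : ℕ) : Function.Exact (S.relJ k p hp h n) (S.relRes k p hp h n) := by
  have h1 := exact_mid (n := n) (T := (S.P k p hp t).T) (S := (S.W k p hp h).T)
    (R := (S.P k p hp t).S) (Zr_anti le_rfl (S.mono s t h)) Zr_le_Cc
  intro x
  rw [← eqW_relResW, LinearEquiv.map_eq_zero_iff]
  exact h1 x

theorem relExact2 (n : ℕ) : Function.Exact (S.relRes k p hp h n) (S.relDel k p hp h n) := by
  have h1 := exact_del (n := n) (T := (S.P k p hp t).T) (S := (S.W k p hp h).T)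
    (R := (S.P k p hp t).S) (Zr_anti le_rfl (S.mono s t h)) Zr_le_Cc
  intro y
  obtain ⟨z, rfl⟩ := (S.eqW k p hp h n).surjective y
  rw [relDel_eqW]
  refine (h1 z).trans ?_
  constructor
  · rintro ⟨x, rfl⟩
    exact ⟨x, (S.eqW_relResW k p hp h n x).symm⟩
  · rintro ⟨x, hx⟩
    refine ⟨x, (S.eqW k p hp h n).injective ?_⟩
    rw [← hx]
    exact S.eqW_relResW k p hp h n x

theorem relExact3 (n : ℕ) : Function.Exact (S.relDel k p hp h n) (S.relJ k p hp h (n + 1)) := by
  have h1 := exact_inc (n := n) (T := (S.P k p hp t).T) (S := (S.W k p hp h).T)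
    (R := (S.P k p hp t).S) (Zr_anti le_rfl (S.mono s t h)) Zr_le_Cc
  intro x
  refine (h1 x).trans ?_
  constructor
  · rintro ⟨y, rfl⟩
    exact ⟨S.eqW k p hp h n y, S.relDel_eqW k p hp h n y⟩
  · rintro ⟨y, rfl⟩
    exact ⟨(S.eqW k p hp h n).symm y, rfl⟩

/-- reversal on `H (X t)` -/
def absTh (t : ℝ) (n : ℕ) : (S.P k p hp t).HH n →ₗ[k] (S.P k p hp t).HH n :=
  rH (S.P_rstable k p hp t) n

/-- **reversal on `H (X t, X s)`** -/
def relTh (n : ℕ) : (S.Q k p hp h).HH n →ₗ[k] (S.Q k p hp h).HH n :=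
  rH (S.Q_rstable k p hp h) n

theorem absTh_absTh (n : ℕ) (x : (S.P k p hp t).HH n) :
    S.absTh k p hp t n (S.absTh k p hp t n x) = x := (GCx.Pair.level (S.P_rstable k p hp t)).rH_rH n x

theorem relTh_relTh (n : ℕ) (x : (S.Q k p hp h).HH n) :
    S.relTh k p hp h n (S.relTh k p hp h n x) = x := (GCx.Pair.level (S.Q_rstable k p hp h)).rH_rH n x

/-- the reversal commutes with the restriction -/
theorem absTh_relRes (n : ℕ) (x : (S.P k p hp t).HH n) :
    S.absTh k p hp s n (S.relRes k p hp h n x) = S.relRes k p hp h n (S.absTh k p hp t n x) := by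
  obtain ⟨c, hc, rfl⟩ := H.exists_mk x
  rfl

/-- the reversal commutes with `j` -/
theorem absTh_relJ (n : ℕ) (x : (S.Q k p hp h).HH n) :
    S.absTh k p hp t n (S.relJ k p hp h n x) = S.relJ k p hp h n (S.relTh k p hp h n x) := by
  obtain ⟨c, hc, rfl⟩ := H.exists_mk x
  rfl

/-- the reversal in the world `X t` -/
theorem absTh_eqW (n : ℕ) (x : (S.W k p hp h).HH n) :
    S.absTh k p hp s n (S.eqW k p hp h n x) =
      S.eqW k p hp h n (rH (S.W_rstable (k := k) (p := p) (hp := hp) h) n x) := by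
  obtain ⟨c, hc, rfl⟩ := H.exists_mk x
  rfl

theorem relTh_delW (n : ℕ) (x : (S.W k p hp h).HH n) :
    S.relTh k p hp h (n + 1) (S.delW k p hp h n x) =
      S.delW k p hp h n (rH (S.W_rstable (k := k) (p := p) (hp := hp) h) n x) := by
  obtain ⟨c, hc, rfl⟩ := H.exists_mk x
  have h1 : (S.sym k p hp).rev.r (n + 1) ((ASK Λ k).d n c) -
      (ASK Λ k).d n ((S.sym k p hp).rev.r n c) ∈ Bc (S.Q k p hp h).S (S.Q k p hp h).T (n + 1) := by
    rw [(S.sym k p hp).rev.d_r, sub_self]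
    exact Submodule.zero_mem _
  exact H.mk_eq_mk.2 h1

/-- the reversal commutes with `δ` -/
theorem relTh_relDel (n : ℕ) (x : (S.P k p hp s).HH n) :
    S.relTh k p hp h (n + 1) (S.relDel k p hp h n x) =
      S.relDel k p hp h n (S.absTh k p hp s n x) := by
  obtain ⟨z, rfl⟩ := (S.eqW k p hp h n).surjective x
  rw [relDel_eqW, absTh_eqW, relDel_eqW, relTh_delW]

end Vale.Agent.P216.GSys
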