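import Vale.Agent.P216.H651.RtFin
import Vale.Agent.P216.H494.EGoal
import Vale.Agent.P216.E707.HolE

/-!
# P216-E: the intrinsic Theorem A, `d = 2`
-/

open Vale.Agent.P216 Vale.Agent.P216.H494E

namespace Vale.Agent.P216.H651

/-- **Closed simply connected Riemannian manifolds whose rational cohomology is generated by one
class of degree two have infinitely many closed geodesics.** -/
theorem eGoal : EGoal :=
  @eGoal_of (fun _ _ _ _ _ hρ hU => Rt.rootStmt hρ hU) @E707.holStmt

end Vale.Agent.P216.H651
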