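import Vale.Agent.P216.H288.Sweep
import Vale.Agent.P216.LS.Lift

/-!
# P216-E: the square root of a transport kernel, chains

`Ch x₀ x N δ P`: `P : ℕ → M` is a chain from `x₀` to `x` with `N` steps, all shorter than `δ`.
`Z`: chains with a square root of the product of the kernel.  `J`: two chains are joined in `Z`,
the square roots differ by the factor `w`.
-/

set_option linter.all false

open Set Filter Topology
open scoped ComplexConjugate

namespace Vale.Agent.P216.H651.Rt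

open Vale.Agent.P216.L250 Vale.Agent.P216.LS Vale.Agent.P216.H288

variable {M : Type*} [MetricSpace M] {κ : M → M → ℂ} {A r R ρ δ : ℝ} {x₀ x y : M} {N : ℕ}

/-! ### Square roots -/

theorem csq_norm {u : ℂ} (h : ‖u‖ = 1) : ‖csq u‖ = 1 := by
  have h0 : u ≠ 0 := by
    intro h0
    rw [h0, norm_zero] at h
    exact zero_ne_one h
  have h1 : ‖csq u‖ ^ 2 = 1 := by rw [← norm_pow, csq_sq h0, h]
  exact (pow_eq_one_iff_of_nonneg (norm_nonneg _) two_ne_zero).1 h1

theorem csq_re {u : ℂ} (h : u ∈ Complex.slitPlane) : 0 ≤ (csq u).re := by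
  rw [csq, Complex.exp_re]
  refine mul_nonneg (Real.exp_pos _).le (Real.cos_nonneg_of_mem_Icc ?_)
  have h1 : (Complex.log u / 2).im = u.arg / 2 := by
    have : Complex.log u / 2 = Complex.log u / ((2 : ℝ) : ℂ) := by norm_num
    rw [this, Complex.div_ofReal_im, Complex.log_im]
  rw [h1]
  have := Complex.neg_pi_lt_arg u
  have := Complex.arg_le_pi u
  constructor <;> linarith

theorem norm_csq_sub_one {u : ℂ} (h : ‖u‖ = 1) (hu : u ∈ Complex.slitPlane) :
    ‖csq u - 1‖ ≤ ‖u - 1‖ := by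
  have h0 : u ≠ 0 := Complex.slitPlane_ne_zero hu
  have h1 : u - 1 = (csq u - 1) * (csq u + 1) := by
    rw [show (csq u - 1) * (csq u + 1) = csq u ^ 2 - 1 by ring, csq_sq h0]
  have h2 : 1 ≤ ‖csq u + 1‖ := by
    refine le_trans ?_ (Complex.re_le_norm _)
    rw [Complex.add_re, Complex.one_re]
    have := csq_re hu
    linarith
  rw [h1, norm_mul]
  nlinarith [norm_nonneg (csq u - 1)]

/-! ### Chains -/

/-- A chain from `x₀` to `x` with `N` steps shorter than `δ`. -/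
structure Ch (x₀ x : M) (N : ℕ) (δ : ℝ) (P : ℕ → M) : Prop where
  zero : P 0 = x₀
  last : ∀ i, N ≤ i → P i = x
  step : ∀ i, dist (P i) (P (i + 1)) < δ

theorem Ch.mono {P : ℕ → M} (h : Ch x₀ x N δ P) {N' : ℕ} {δ' : ℝ} (hN : N ≤ N') (hδ : δ ≤ δ') :
    Ch x₀ x N' δ' P :=
  ⟨h.zero, fun i hi => h.last i (hN.trans hi), fun i => (h.step i).trans_le hδ⟩

/-- Refinement by repetition. -/
def st (q : ℕ) (P : ℕ → M) : ℕ → M := fun i => P (i / q)

theorem st_st (q q' : ℕ) (P : ℕ → M) : st q' (st q P) = st (q' * q) P := by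
  funext i
  simp only [st, Nat.div_div_eq_div_mul]

theorem Ch.st {P : ℕ → M} (h : Ch x₀ x N δ P) {q : ℕ} (hq : 0 < q) :
    Ch x₀ x (N * q) δ (st q P) where
  zero := by
    show P (0 / q) = x₀
    rw [Nat.zero_div, h.zero]
  last i hi := h.last _ ((Nat.le_div_iff_mul_le hq).2 hi)
  step i := by
    show dist (P (i / q)) (P ((i + 1) / q)) < δ
    have h2 : (i + 1) / q = i / q ∨ (i + 1) / q = i / q + 1 := by
      rw [Nat.succ_div]
      split_ifs <;> simp
    have h3 : 0 < δ := dist_nonneg.trans_lt (h.step 0)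
    rcases h2 with h2 | h2
    · rw [h2, dist_self]; exact h3
    · rw [h2]; exact h.step _

/-- Concatenation. -/
def ct (N : ℕ) (P T : ℕ → M) : ℕ → M := fun i => if i ≤ N then P i else T (i - N)

theorem ct_left {P T : ℕ → M} {i : ℕ} (h : i ≤ N) : ct N P T i = P i := if_pos h

theorem ct_right {P T : ℕ → M} (h0 : T 0 = P N) (i : ℕ) : ct N P T (N + i) = T i := by
  by_cases h : N + i ≤ N
  · have : i = 0 := by omega
    subst this
    rw [add_zero, ct_left le_rfl, h0]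
  · rw [ct, if_neg h, Nat.add_sub_cancel_left]

theorem Ch.ct {P T : ℕ → M} (h : Ch x₀ x N δ P) {N' : ℕ} (h' : Ch x y N' δ T) :
    Ch x₀ y (N + N') δ (ct N P T) where
  zero := by rw [ct_left (Nat.zero_le _), h.zero]
  last i hi := by
    obtain ⟨j, rfl⟩ := Nat.exists_eq_add_of_le (show N ≤ i by omega)
    rw [ct_right (by rw [h'.zero, h.last N le_rfl]), h'.last j (by omega)]
  step i := by
    have e : T 0 = P N := by rw [h'.zero, h.last N le_rfl]
    rcases Nat.lt_or_ge i N with h1 | h1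
    · rw [ct_left h1.le, ct_left h1]
      exact h.step i
    · obtain ⟨j, rfl⟩ := Nat.exists_eq_add_of_le h1
      rw [ct_right e, add_assoc, ct_right e]
      exact h'.step j

theorem bp_ct (κ : M → M → ℂ) {P T : ℕ → M} (e : T 0 = P N) (N' : ℕ) :
    bp κ (N + N') (ct N P T) = bp κ N P * bp κ N' T := by
  rw [bp, Finset.prod_range_add, bp, bp]
  congr 1
  · refine Finset.prod_congr rfl fun i hi => ?_
    have := Finset.mem_range.1 hi
    rw [ct_left (by omega), ct_left (by omega)]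
  · refine Finset.prod_congr rfl fun i hi => ?_
    rw [ct_right e, add_assoc, ct_right e]

theorem st_ct {q : ℕ} (hq : 0 < q) {P T : ℕ → M} (e : T 0 = P N) :
    st q (ct N P T) = ct (N * q) (st q P) (st q T) := by
  funext i
  rcases Nat.le_total i (N * q) with h | h
  · rw [ct_left h]
    have h1 : i / q ≤ N := by
      calc i / q ≤ N * q / q := Nat.div_le_div_right h
        _ = N := Nat.mul_div_cancel _ hq
    show ct N P T (i / q) = P (i / q)
    rw [ct_left h1]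
  · obtain ⟨j, rfl⟩ := Nat.exists_eq_add_of_le h
    have e' : st q T 0 = st q P (N * q) := by
      show T (0 / q) = P (N * q / q)
      rw [Nat.zero_div, Nat.mul_div_cancel _ hq, e]
    rw [ct_right e']
    show ct N P T ((N * q + j) / q) = T (j / q)
    have h1 : (N * q + j) / q = N + j / q := by
      rw [mul_comm N q, Nat.mul_add_div hq]
    rw [h1, ct_right e]

theorem bp_mono (h : Ker κ A r) {P : ℕ → M} (hP : ∀ i, N ≤ i → P i = x) {N' : ℕ} (hN : N ≤ N') :
    bp κ N' P = bp κ N P := by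
  obtain ⟨m, rfl⟩ := Nat.exists_eq_add_of_le hN
  rw [bp, Finset.prod_range_add, ← bp]
  rw [Finset.prod_eq_one, mul_one]
  intro i _
  rw [hP _ (by omega), hP _ (by omega), h.self]

theorem bp_st (h : Ker κ A r) {q : ℕ} (hq : 0 < q) (N : ℕ) (P : ℕ → M) :
    bp κ (N * q) (st q P) = bp κ N P := bp_repeat h hq N P

/-! ### The double cover of the chains -/

variable (κ x₀ x N R) in
/-- Chains with a square root. -/
def Z : Set ((ℕ → M) × ℂ) := {p | Ch x₀ x N R p.1 ∧ p.2 ^ 2 = bp κ N p.1}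

theorem mem_Z {P : ℕ → M} {z : ℂ} : (P, z) ∈ Z κ R x₀ x N ↔ Ch x₀ x N R P ∧ z ^ 2 = bp κ N P :=
  Iff.rfl

theorem norm_of_sq (h : Ker κ A r) {P : ℕ → M} {z : ℂ} (hz : z ^ 2 = bp κ N P) : ‖z‖ = 1 := by
  have h1 : ‖z‖ ^ 2 = 1 := by rw [← norm_pow, hz, norm_bp h]
  exact (pow_eq_one_iff_of_nonneg (norm_nonneg _) two_ne_zero).1 h1

theorem mul_conj_of_norm {z : ℂ} (h : ‖z‖ = 1) : z * conj z = 1 := by
  rw [mul_comm]
  exact conj_mul_self_of_norm h

variable (κ R x₀ x N) in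
/-- The chains are joined, the square roots differ by the factor `conj w`. -/
def J (P Q : ℕ → M) (w : ℂ) : Prop :=
  ∃ z : ℂ, ‖w‖ = 1 ∧ JoinedIn (Z κ R x₀ x N) (P, z) (Q, z * conj w)

theorem J.left {P Q : ℕ → M} {w : ℂ} (h : J κ R x₀ x N P Q w) : Ch x₀ x N R P := by
  obtain ⟨z, _, h⟩ := h
  exact h.source_mem.1

theorem J.right {P Q : ℕ → M} {w : ℂ} (h : J κ R x₀ x N P Q w) : Ch x₀ x N R Q := by
  obtain ⟨z, _, h⟩ := h
  exact h.target_mem.1

theorem exists_sqrt (z : ℂ) : ∃ w : ℂ, w ^ 2 = z := ⟨z ^ (((2 : ℕ) : ℂ)⁻¹),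
  Complex.cpow_nat_inv_pow _ two_ne_zero⟩

theorem J.refl {P : ℕ → M} (h : Ch x₀ x N R P) : J κ R x₀ x N P P 1 := by
  obtain ⟨z, hz⟩ := exists_sqrt (bp κ N P)
  refine ⟨z, norm_one, ?_⟩
  rw [map_one, mul_one]
  exact JoinedIn.refl ⟨h, hz⟩

/-- The sign of the square root is irrelevant. -/
theorem J.all (hκ : Ker κ A r) {P Q : ℕ → M} {w : ℂ} (h : J κ R x₀ x N P Q w) {z : ℂ}
    (hz : z ^ 2 = bp κ N P) : JoinedIn (Z κ R x₀ x N) (P, z) (Q, z * conj w) := by
  obtain ⟨z', hw, h⟩ := h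
  have h1 := h.source_mem.2
  have h2 : z' ^ 2 = z ^ 2 := by rw [hz]; exact h1
  rcases sq_eq_sq_iff_eq_or_eq_neg.1 h2 with rfl | h3
  · exact h
  · have h4 : z = -z' := by rw [h3, neg_neg]
    have h5 := h.map (f := fun p : (ℕ → M) × ℂ => (p.1, -p.2)) (by fun_prop)
    have h6 : JoinedIn (Z κ R x₀ x N) (P, -z') (Q, -(z' * conj w)) := by
      refine h5.mono ?_
      rintro _ ⟨p, hp, rfl⟩
      exact ⟨hp.1, by rw [neg_sq]; exact hp.2⟩
    rw [h4, neg_mul]
    exact h6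

theorem J.norm {P Q : ℕ → M} {w : ℂ} (h : J κ R x₀ x N P Q w) : ‖w‖ = 1 := h.choose_spec.1

theorem J.trans (hκ : Ker κ A r) {P Q S : ℕ → M} {w v : ℂ} (h : J κ R x₀ x N P Q w)
    (h' : J κ R x₀ x N Q S v) : J κ R x₀ x N P S (w * v) := by
  obtain ⟨z, hw, h⟩ := h
  refine ⟨z, by rw [norm_mul, hw, h'.norm, mul_one], h.trans ?_⟩
  have := h'.all hκ h.target_mem.2
  rwa [mul_assoc, ← map_mul] at this

theorem J.symm {P Q : ℕ → M} {w : ℂ} (h : J κ R x₀ x N P Q w) :
    J κ R x₀ x N Q P (conj w) := by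
  obtain ⟨z, hw, h⟩ := h
  refine ⟨z * conj w, by rw [RCLike.norm_conj, hw], ?_⟩
  rw [Complex.conj_conj, mul_assoc, conj_mul_self_of_norm hw, mul_one]
  exact h.symm

theorem J.sq (hκ : Ker κ A r) {P Q : ℕ → M} {w : ℂ} (h : J κ R x₀ x N P Q w) :
    w ^ 2 = bp κ N P * conj (bp κ N Q) := by
  obtain ⟨z, hw, h⟩ := h
  have h1 : z ^ 2 = bp κ N P := h.source_mem.2
  have h2 : (z * conj w) ^ 2 = bp κ N Q := h.target_mem.2
  have h3 := norm_of_sq hκ h1
  have h4 := mul_conj_of_norm h3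
  rw [← h1, ← h2, map_pow, map_mul, Complex.conj_conj]
  linear_combination (-(w ^ 2) * (z * conj z + 1)) * h4

theorem J.mono (hκ : Ker κ A r) {P Q : ℕ → M} {w : ℂ} (h : J κ R x₀ x N P Q w) {N' : ℕ}
    (hN : N ≤ N') : J κ R x₀ x N' P Q w := by
  obtain ⟨z, hw, h⟩ := h
  refine ⟨z, hw, h.mono ?_⟩
  rintro ⟨P, z⟩ ⟨h1, h2⟩
  exact ⟨h1.mono hN le_rfl, by rw [h2, bp_mono hκ h1.last hN]⟩

theorem J.st (hκ : Ker κ A r) {P Q : ℕ → M} {w : ℂ} (h : J κ R x₀ x N P Q w) {q : ℕ}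
    (hq : 0 < q) : J κ R x₀ x (N * q) (st q P) (st q Q) w := by
  obtain ⟨z, hw, h⟩ := h
  refine ⟨z, hw, ?_⟩
  have h1 := h.map (f := fun p : (ℕ → M) × ℂ => (Rt.st q p.1, p.2)) (by
    refine Continuous.prodMk (continuous_pi fun i => ?_) continuous_snd
    exact (continuous_apply _).comp continuous_fst)
  refine h1.mono ?_
  rintro _ ⟨⟨P, z⟩, hp, rfl⟩
  exact ⟨hp.1.st hq, by rw [bp_st hκ hq]; exact hp.2⟩

theorem J.ct (hκ : Ker κ A r) {P Q T : ℕ → M} {w : ℂ} (h : J κ R x₀ x N P Q w) {N' : ℕ}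
    (hT : Ch x y N' R T) : J κ R x₀ y (N + N') (ct N P T) (ct N Q T) w := by
  obtain ⟨z, hw, h⟩ := h
  obtain ⟨b, hb⟩ := exists_sqrt (bp κ N' T)
  refine ⟨z * b, hw, ?_⟩
  have h1 := h.map (f := fun p : (ℕ → M) × ℂ => (Rt.ct N p.1 T, p.2 * b)) (by
    refine Continuous.prodMk (continuous_pi fun i => ?_) (continuous_snd.mul continuous_const)
    by_cases hi : i ≤ N
    · have e : (fun p : (ℕ → M) × ℂ => Rt.ct N p.1 T i) = fun p => p.1 i :=
        funext fun p => ct_left hi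
      rw [e]
      exact (continuous_apply _).comp continuous_fst
    · have e : (fun p : (ℕ → M) × ℂ => Rt.ct N p.1 T i) = fun p => T (i - N) :=
        funext fun p => if_neg hi
      rw [e]
      exact continuous_const)
  have h2 : JoinedIn (Z κ R x₀ y (N + N')) (Rt.ct N P T, z * b)
      (Rt.ct N Q T, z * conj w * b) := by
    refine h1.mono ?_
    rintro _ ⟨⟨P, z⟩, hp, rfl⟩
    refine ⟨hp.1.ct hT, ?_⟩
    have hp2 : z ^ 2 = bp κ N P := hp.2
    rw [bp_ct κ (by rw [hT.zero, hp.1.last N le_rfl]), mul_pow, hb, hp2]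
  rwa [mul_right_comm] at h2

end Vale.Agent.P216.H651.Rt
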