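import Vale.Agent.P216.H651.Rt1

/-!
# P216-E: the elementary move of chains
-/

set_option linter.all false

open Set Filter Topology
open scoped ComplexConjugate

namespace Vale.Agent.P216.H651.Rt

open Vale.Agent.P216.L250 Vale.Agent.P216.LS Vale.Agent.P216.H288

variable {M : Type*} [MetricSpace M] {κ : M → M → ℂ} {A r R ρ δ : ℝ} {x₀ x y : M} {N : ℕ}

/-- The weight of a move. -/
noncomputable def wt (κ : M → M → ℂ) (N : ℕ) (P Q : ℕ → M) : ℂ :=
  ∏ i ∈ Finset.range N, csq (quad κ (P i) (P (i + 1)) (Q (i + 1)) (Q i))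

theorem quad_lt (h : Ker κ A r) (hRr : R ≤ r) (hRA : 2 * A * R ^ 2 < 1) {a b c d : M}
    (h1 : dist a b < R) (h2 : dist b c < R) (h3 : dist c d < R) (h4 : dist d a < R) :
    ‖quad κ a b c d - 1‖ < 1 := by
  refine (quad_near h (h1.trans_le hRr) (h2.trans_le hRr) (h3.trans_le hRr)
    (h4.trans_le hRr)).trans_lt ?_
  have hA := h.A_nonneg
  have hR : 0 < R := dist_nonneg.trans_lt h1
  have b1 : A * dist a b * dist b c ≤ A * R * R := by
    have := h1.le
    have := h2.le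
    gcongr
  have b2 : A * dist c d * dist d a ≤ A * R * R := by
    have := h3.le
    have := h4.le
    gcongr
  nlinarith

theorem quad_mem (h : Ker κ A r) (hRr : R ≤ r) (hRA : 2 * A * R ^ 2 < 1) {a b c d : M}
    (h1 : dist a b < R) (h2 : dist b c < R) (h3 : dist c d < R) (h4 : dist d a < R) :
    quad κ a b c d ∈ Complex.slitPlane :=
  mem_slitPlane_of_norm_sub_one (quad_lt h hRr hRA h1 h2 h3 h4)

theorem quad_self (h : Ker κ A r) (a b : M) : quad κ a b b a = 1 := by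
  rw [quad, h.self, h.self, mul_one, mul_one, h.mul_symm]

theorem norm_wt (h : Ker κ A r) (P Q : ℕ → M) : ‖wt κ N P Q‖ = 1 := by
  rw [wt, norm_prod]
  exact Finset.prod_eq_one fun i _ => csq_norm (norm_quad h _ _ _ _)

theorem wt_self (h : Ker κ A r) (P : ℕ → M) : wt κ N P P = 1 := by
  rw [wt]
  refine Finset.prod_eq_one fun i _ => ?_
  rw [quad_self h, csq_one]

theorem wt_sq (h : Ker κ A r) {P Q : ℕ → M} (h0 : P 0 = Q 0) (hN : P N = Q N) :
    wt κ N P Q ^ 2 = bp κ N P * conj (bp κ N Q) := by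
  have e1 : wt κ N P Q ^ 2 =
      ∏ i ∈ Finset.range N, quad κ (P i) (P (i + 1)) (Q (i + 1)) (Q i) := by
    rw [wt, ← Finset.prod_pow]
    refine Finset.prod_congr rfl fun i _ => csq_sq fun h0 => ?_
    have := norm_quad h (P i) (P (i + 1)) (Q (i + 1)) (Q i)
    rw [h0, norm_zero] at this
    exact zero_ne_one this
  rw [e1]
  have h1 : ∏ i ∈ Finset.range N, quad κ (P i) (P (i + 1)) (Q (i + 1)) (Q i) =
      (∏ i ∈ Finset.range N, κ (P i) (P (i + 1))) *
      (∏ i ∈ Finset.range N, κ (P (i + 1)) (Q (i + 1))) *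
      (∏ i ∈ Finset.range N, κ (Q (i + 1)) (Q i)) * ∏ i ∈ Finset.range N, κ (Q i) (P i) := by
    simp only [quad, Finset.prod_mul_distrib]
  have h2 := prod_shift (N := N) (fun i => κ (P i) (Q i)) (by simp only [h0, hN, h.self])
    (h.ne_zero _ _)
  have h3 : (∏ i ∈ Finset.range N, κ (P i) (Q i)) * ∏ i ∈ Finset.range N, κ (Q i) (P i) = 1 := by
    rw [← Finset.prod_mul_distrib]
    exact Finset.prod_eq_one fun i _ => h.mul_symm _ _
  have h4 : conj (bp κ N Q) = ∏ i ∈ Finset.range N, κ (Q (i + 1)) (Q i) := by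
    rw [bp, map_prod]
    exact Finset.prod_congr rfl fun i _ => (h.symm _ _).symm
  rw [h1, h2, h4, bp]
  linear_combination ((∏ i ∈ Finset.range N, κ (P i) (P (i + 1))) *
    ∏ i ∈ Finset.range N, κ (Q (i + 1)) (Q i)) * h3

variable [CompactSpace M]

/-- **The elementary move.** -/
theorem J_move (h : Ker κ A r) (hU : UniqSeg M ρ) (hR0 : 0 < R) (hRr : R ≤ r) (hRρ : R ≤ ρ)
    (hRA : 2 * A * R ^ 2 < 1) {P Q : ℕ → M} (hP : Ch x₀ x N (R / 3) P)
    (hQ : Ch x₀ x N (R / 3) Q) (hPQ : ∀ i, dist (P i) (Q i) < R / 3) :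
    J κ R x₀ x N P Q (wt κ N P Q) := by
  obtain ⟨z, hz⟩ := exists_sqrt (bp κ N P)
  have hz1 := norm_of_sq h hz
  set F : ℝ → ℕ → M := fun τ i => seg (P i) (Q i) τ with hF
  have hd : ∀ i, dist (P i) (Q i) < ρ := fun i => (hPQ i).trans_le (by linarith)
  have hPF : ∀ τ ∈ Icc (0 : ℝ) 1, ∀ i, dist (P i) (F τ i) < R / 3 := by
    intro τ hτ i
    rw [hF]
    show dist (P i) (seg (P i) (Q i) τ) < R / 3
    rw [dist_left_seg hU (hd i) hτ]
    exact (mul_le_of_le_one_left dist_nonneg hτ.2).trans_lt (hPQ i)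
  have hch : ∀ τ ∈ Icc (0 : ℝ) 1, Ch x₀ x N R (F τ) := by
    intro τ hτ
    refine ⟨?_, fun i hi => ?_, fun i => ?_⟩
    · show seg (P 0) (Q 0) τ = x₀
      rw [hP.zero, hQ.zero, seg_self]
    · show seg (P i) (Q i) τ = x
      rw [hP.last i hi, hQ.last i hi, seg_self]
    · have h1 := hPF τ hτ i
      have h2 := hPF τ hτ (i + 1)
      have h3 := hP.step i
      rw [dist_comm] at h1
      have h4 := dist_triangle4 (F τ i) (P i) (P (i + 1)) (F τ (i + 1))
      linarith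
  have hF0 : F 0 = P := by funext i; exact seg_zero _ _
  have hF1 : F 1 = Q := by funext i; exact seg_one _ _
  have hFc : ∀ i, ContinuousOn (fun τ => F τ i) (Icc 0 1) := fun i =>
    ContinuousOn.seg hU continuousOn_const continuousOn_const continuousOn_id
      (fun _ _ => hd i) fun _ h => h
  have hsq : ∀ τ ∈ Icc (0 : ℝ) 1, (z * conj (wt κ N P (F τ))) ^ 2 = bp κ N (F τ) := by
    intro τ hτ
    have e1 : P 0 = F τ 0 := by rw [hP.zero, (hch τ hτ).zero]
    have e2 : P N = F τ N := by rw [hP.last N le_rfl, (hch τ hτ).last N le_rfl]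
    have e3 := wt_sq h (N := N) e1 e2
    have e4 : bp κ N P * conj (bp κ N P) = 1 := mul_conj_of_norm (norm_bp h _ _)
    rw [mul_pow, ← map_pow, e3, hz, map_mul, Complex.conj_conj]
    linear_combination (bp κ N (F τ)) * e4
  have hst : ∀ a b c d : M, dist a b < R → dist b c < R → dist c d < R → dist d a < R →
      quad κ a b c d ∈ Complex.slitPlane := fun a b c d h1 h2 h3 h4 =>
    quad_mem h hRr hRA h1 h2 h3 h4
  refine ⟨z, norm_wt h _ _, ?_⟩
  refine JoinedIn.ofLine (f := fun τ => (F τ, z * conj (wt κ N P (F τ)))) ?_ ?_ ?_ ?_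
  · refine ContinuousOn.prodMk (continuousOn_pi.2 hFc) (continuousOn_const.mul
      (Complex.continuous_conj.comp_continuousOn ?_))
    refine continuousOn_finset_prod _ fun i _ => ?_
    have q1 : ∀ τ ∈ Icc (0 : ℝ) 1, dist (P i) (P (i + 1)) < R := fun τ _ =>
      (hP.step i).trans (by linarith)
    have q2 : ∀ τ ∈ Icc (0 : ℝ) 1, dist (P (i + 1)) (F τ (i + 1)) < R := fun τ hτ =>
      (hPF τ hτ (i + 1)).trans (by linarith)
    have q3 : ∀ τ ∈ Icc (0 : ℝ) 1, dist (F τ (i + 1)) (F τ i) < R := fun τ hτ => by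
      rw [dist_comm]; exact (hch τ hτ).step i
    have q4 : ∀ τ ∈ Icc (0 : ℝ) 1, dist (F τ i) (P i) < R := fun τ hτ => by
      rw [dist_comm]; exact (hPF τ hτ i).trans (by linarith)
    refine continuousOn_csq.comp (continuousOn_quad h continuousOn_const continuousOn_const
      (hFc (i + 1)) (hFc i) (fun τ hτ => (q1 τ hτ).trans_le hRr)
      (fun τ hτ => (q2 τ hτ).trans_le hRr) (fun τ hτ => (q3 τ hτ).trans_le hRr)
      fun τ hτ => (q4 τ hτ).trans_le hRr) fun τ hτ => ?_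
    exact hst _ _ _ _ (q1 τ hτ) (q2 τ hτ) (q3 τ hτ) (q4 τ hτ)
  · simp only [hF0, wt_self h, map_one, mul_one]
  · simp only [hF1]
  · rintro _ ⟨τ, hτ, rfl⟩
    exact ⟨hch τ hτ, hsq τ hτ⟩

end Vale.Agent.P216.H651.Rt
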