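import Vale.Agent.P216.H651.Rt2

/-!
# P216-E: the square root of a transport kernel, assembly
-/

set_option linter.all false

open Set Filter Topology
open scoped ComplexConjugate

namespace Vale.Agent.P216.H651.Rt

open Vale.Agent.P216.L250 Vale.Agent.P216.LS Vale.Agent.P216.H288

variable {M : Type*} [MetricSpace M] {κ : M → M → ℂ} {A r R ρ δ : ℝ} {x₀ x y : M} {N : ℕ}

/-- One step. -/
def e1 (x y : M) : ℕ → M := fun i => if i = 0 then x else y

theorem e1_zero (x y : M) : e1 x y 0 = x := if_pos rfl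

theorem e1_pos (x y : M) {i : ℕ} (h : 0 < i) : e1 x y i = y := if_neg h.ne'

theorem ch_e1 (h : dist x y < δ) : Ch x y 1 δ (e1 x y) where
  zero := e1_zero x y
  last i hi := e1_pos x y hi
  step i := by
    rcases Nat.eq_zero_or_pos i with rfl | hi
    · rw [e1_zero, e1_pos x y (by omega)]
      exact h
    · rw [e1_pos x y hi, e1_pos x y (by omega), dist_self]
      exact dist_nonneg.trans_lt h

theorem bp_e1 (κ : M → M → ℂ) (x y : M) : bp κ 1 (e1 x y) = κ x y := by
  rw [bp, Finset.prod_range_one, e1_zero, e1_pos x y (by omega)]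

theorem J.eq (h : Ker κ A r) (huniq : ∀ {x N P w}, J κ R x₀ x N P P w → w = 1) {P Q : ℕ → M}
    {w v : ℂ} (h1 : J κ R x₀ x N P Q w) (h2 : J κ R x₀ x N P Q v) : w = v := by
  have h3 := huniq (h1.trans h h2.symm)
  have h4 := conj_mul_self_of_norm h2.norm
  calc w = w * (conj v * v) := by rw [h4, mul_one]
    _ = (w * conj v) * v := by ring
    _ = v := by rw [h3, one_mul]

variable [CompactSpace M]

/-- The two moves of the triangle. -/
theorem J_tri (h : Ker κ A r) (hU : UniqSeg M ρ) (hR0 : 0 < R) (hRr : R ≤ r) (hRρ : R ≤ ρ)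
    (hRA : 2 * A * R ^ 2 < 1) {c : ℕ → M} {z : M} (hc : Ch x₀ x N (R / 3) c)
    (hxy : dist x y < R / 3) (hyz : dist y z < R / 3) (hxz : dist x z < R / 3) :
    J κ R x₀ z (N + 2) (ct (N + 1) (ct N c (e1 x y)) (e1 y z)) (ct N c (e1 x z))
      (csq (κ x y * κ y z * κ z x)) := by
  set α := ct (N + 1) (ct N c (e1 x y)) (e1 y z) with hα
  set α' := ct N c (e1 x z) with hα'
  have hA : Ch x₀ z (N + 1 + 1) (R / 3) α := (hc.ct (ch_e1 hxy)).ct (ch_e1 hyz)
  have hA' : Ch x₀ z (N + 2) (R / 3) α' := (hc.ct (ch_e1 hxz)).mono (by omega) le_rfl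
  have a1 : ∀ i, i ≤ N → α i = c i := fun i hi => by
    rw [hα, ct_left (by omega), ct_left hi]
  have a2 : α (N + 1) = y := by
    rw [hα, ct_left le_rfl]
    exact (ct_right (by rw [e1_zero, hc.last N le_rfl]) 1).trans (e1_pos _ _ one_pos)
  have a3 : ∀ i, N + 2 ≤ i → α i = z := fun i hi => hA.last i (by omega)
  have b1 : ∀ i, i ≤ N → α' i = c i := fun i hi => by rw [hα', ct_left hi]
  have b3 : ∀ i, N + 1 ≤ i → α' i = z := fun i hi => by
    obtain ⟨j, rfl⟩ := Nat.exists_eq_add_of_le (show N ≤ i by omega)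
    rw [hα', ct_right (by rw [e1_zero, hc.last N le_rfl]), e1_pos _ _ (by omega)]
  have cN : c N = x := hc.last N le_rfl
  have hcl : ∀ i, dist (α i) (α' i) < R / 3 := by
    intro i
    rcases Nat.lt_trichotomy i (N + 1) with hi | hi | hi
    · rw [a1 i (by omega), b1 i (by omega), dist_self]
      linarith
    · rw [hi, a2, b3 _ le_rfl]
      exact hyz
    · rw [a3 i (by omega), b3 i (by omega), dist_self]
      linarith
  have key := J_move h hU hR0 hRr hRρ hRA hA hA' hcl
  have hw : wt κ (N + 2) α α' = csq (κ x y * κ y z * κ z x) := by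
    rw [wt, Finset.prod_range_succ, Finset.prod_range_succ, Finset.prod_eq_one, one_mul]
    · rw [a1 N le_rfl, a2, b1 N le_rfl, b3 (N + 1) le_rfl, a3 (N + 1 + 1) le_rfl,
        b3 (N + 1 + 1) (by omega), cN]
      have q1 : quad κ y z z z = 1 := by
        rw [quad, h.self, mul_one, mul_one, h.mul_symm]
      have q2 : quad κ x y z x = κ x y * κ y z * κ z x := by
        rw [quad, h.self, mul_one]
      rw [q1, q2, csq_one, mul_one]
    · intro i hi
      have := Finset.mem_range.1 hi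
      rw [a1 i (by omega), a1 (i + 1) (by omega), b1 i (by omega), b1 (i + 1) (by omega),
        quad_self h, csq_one]
  rw [hw] at key
  exact key

/-- The idle step may be moved. -/
theorem J_idle (h : Ker κ A r) (hU : UniqSeg M ρ) (hR0 : 0 < R) (hRr : R ≤ r) (hRρ : R ≤ ρ)
    (hRA : 2 * A * R ^ 2 < 1) {c : ℕ → M} {z : M} (hc : Ch x₀ y N (R / 3) c)
    (hyz : dist y z < R / 3) :
    J κ R x₀ z (N + 2) (ct (N + 1) c (e1 y z)) (ct N c (e1 y z)) 1 := by
  have h1 := J_tri h hU hR0 hRr hRρ hRA (x := y) (y := y) (z := z) hc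
    (by rw [dist_self]; linarith) hyz hyz
  have e : ct N c (e1 y y) = c := by
    funext i
    rcases Nat.le_total i N with hi | hi
    · rw [ct_left hi]
    · obtain ⟨j, rfl⟩ := Nat.exists_eq_add_of_le hi
      rw [ct_right (by rw [e1_zero, hc.last N le_rfl]), hc.last _ (by omega)]
      rcases Nat.eq_zero_or_pos j with rfl | hj
      · exact e1_zero _ _
      · exact e1_pos _ _ hj
  rw [e, h.self, one_mul, h.mul_symm, csq_one] at h1
  exact h1

/-- **The square root**, assembly. -/
theorem exists_root_of (h : Ker κ A r) (hU : UniqSeg M ρ) (hR0 : 0 < R) (hRr : R ≤ r)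
    (hRρ : R ≤ ρ) (hRA : 2 * A * R ^ 2 < 1)
    (huniq : ∀ {x N P w}, J κ R x₀ x N P P w → w = 1)
    (hex : ∀ {x N P Q}, Ch x₀ x N (R / 3) P → Ch x₀ x N (R / 3) Q →
      ∃ q, 0 < q ∧ ∃ w, J κ R x₀ x (N * q) (st q P) (st q Q) w)
    (hnum : ∃ n, ∀ x, ∃ P, Ch x₀ x n (R / 3) P) :
    ∃ η : ℝ, 0 < η ∧ ∃ (s : M → M → ℂ) (t : M → ℂ), (∀ x, ‖t x‖ = 1) ∧
      (∀ x y, dist x y < η → s x y ^ 2 = t x * κ x y * conj (t y)) ∧
      ∀ x y z, dist x y < η → dist y z < η → dist x z < η →
        ‖s x y * s y z - s x z‖ ≤ A * dist x y * dist y z := by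
  obtain ⟨n, hn⟩ := hnum
  choose c hc using hn
  have hc' : ∀ y, Ch x₀ y (n + 1) (R / 3) (c y) := fun y => (hc y).mono (by omega) le_rfl
  have hct : ∀ x y, dist x y < R / 3 → Ch x₀ y (n + 1) (R / 3) (ct n (c x) (e1 x y)) :=
    fun x y hxy => (hc x).ct (ch_e1 hxy)
  have hS : ∀ x y, ∃ w : ℂ, dist x y < R / 3 → ∃ q, 0 < q ∧
      J κ R x₀ y ((n + 1) * q) (st q (ct n (c x) (e1 x y))) (st q (c y)) w := by
    intro x y
    by_cases hxy : dist x y < R / 3
    · obtain ⟨q, hq, w, hw⟩ := hex (hct x y hxy) (hc' y)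
      exact ⟨w, fun _ => ⟨q, hq, hw⟩⟩
    · exact ⟨1, fun h => absurd h hxy⟩
  choose s hs using hS
  refine ⟨R / 3, by linarith, s, fun x => bp κ n (c x), fun x => norm_bp h _ _,
    fun x y hxy => ?_, fun x y z hxy hyz hxz => ?_⟩
  · obtain ⟨q, hq, hJ⟩ := hs x y hxy
    rw [hJ.sq h, bp_st h hq, bp_st h hq, bp_mono h (hc y).last (Nat.le_succ n),
      bp_ct κ (by rw [e1_zero, (hc x).last n le_rfl]), bp_e1]
  · obtain ⟨q1, hq1, h1⟩ := hs x y hxy
    obtain ⟨q2, hq2, h2⟩ := hs y z hyz
    obtain ⟨q3, hq3, h3⟩ := hs x z hxz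
    set q := q1 * q2 * q3 with hqdef
    have hq : 0 < q := by positivity
    have k1 : J κ R x₀ y ((n + 1) * q) (st q (ct n (c x) (e1 x y))) (st q (c y)) (s x y) := by
      have := h1.st h (q := q2 * q3) (by positivity)
      rw [st_st, st_st, show q2 * q3 * q1 = q by rw [hqdef]; ring,
        show (n + 1) * q1 * (q2 * q3) = (n + 1) * q by rw [hqdef]; ring] at this
      exact this
    have k2 : J κ R x₀ z ((n + 1) * q) (st q (ct n (c y) (e1 y z))) (st q (c z)) (s y z) := by
      have := h2.st h (q := q1 * q3) (by positivity)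
      rw [st_st, st_st, show q1 * q3 * q2 = q by rw [hqdef]; ring,
        show (n + 1) * q2 * (q1 * q3) = (n + 1) * q by rw [hqdef]; ring] at this
      exact this
    have k3 : J κ R x₀ z ((n + 1) * q) (st q (ct n (c x) (e1 x z))) (st q (c z)) (s x z) := by
      have := h3.st h (q := q1 * q2) (by positivity)
      rw [st_st, st_st, show q1 * q2 * q3 = q by rw [hqdef],
        show (n + 1) * q3 * (q1 * q2) = (n + 1) * q by rw [hqdef]; ring] at this
      exact this
    have le2 : (n + 1) * q ≤ (n + 2) * q := Nat.mul_le_mul_right q (by omega)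
    have k2' := k2.mono h le2
    have k3' := k3.mono h le2
    -- the path through `y`
    have m1 : J κ R x₀ z ((n + 2) * q)
        (st q (ct (n + 1) (ct n (c x) (e1 x y)) (e1 y z)))
        (st q (ct (n + 1) (c y) (e1 y z))) (s x y) := by
      have hT : Ch y z (1 * q) R (st q (e1 y z)) :=
        ((ch_e1 hyz).mono le_rfl (by linarith)).st hq
      have := k1.ct h hT
      rw [← st_ct hq (by rw [e1_zero, (hct x y hxy).last _ le_rfl]),
        ← st_ct hq (by rw [e1_zero, (hc' y).last _ le_rfl])] at this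
      convert this using 1
      ring
    have m2 : J κ R x₀ z ((n + 2) * q) (st q (ct (n + 1) (c y) (e1 y z)))
        (st q (ct n (c y) (e1 y z))) 1 :=
      (J_idle h hU hR0 hRr hRρ hRA (hc y) hyz).st h hq
    have m3 : J κ R x₀ z ((n + 2) * q)
        (st q (ct (n + 1) (ct n (c x) (e1 x y)) (e1 y z)))
        (st q (ct n (c x) (e1 x z))) (csq (κ x y * κ y z * κ z x)) :=
      (J_tri h hU hR0 hRr hRρ hRA (hc x) hxy hyz hxz).st h hq
    have p1 := (m1.trans h m2).trans h k2'
    have p2 := m3.trans h k3'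
    have e := J.eq h huniq p1 p2
    rw [mul_one] at e
    have hns : ‖s x z‖ = 1 := k3.norm
    have hT1 : ‖κ x y * κ y z * κ z x‖ = 1 := by
      rw [norm_mul, norm_mul, h.norm_one, h.norm_one, h.norm_one, one_mul, one_mul]
    have hT2 : κ x y * κ y z * κ z x ∈ Complex.slitPlane := by
      have q2 : quad κ x y z x = κ x y * κ y z * κ z x := by
        rw [quad, h.self, mul_one]
      rw [← q2]
      refine quad_mem h hRr hRA (by linarith) (by linarith) ?_ ?_
      · rw [dist_comm]; linarith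
      · rw [dist_self]; exact hR0
    have e2 : s x y * s y z - s x z = (csq (κ x y * κ y z * κ z x) - 1) * s x z := by
      rw [e]; ring
    rw [e2, norm_mul, hns, mul_one]
    refine (norm_csq_sub_one hT1 hT2).trans ?_
    exact h.area x y z (by linarith) (by linarith)

end Vale.Agent.P216.H651.Rt
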