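import Vale.Agent.P216.H651.Rt4
import Vale.Agent.P216.H494.RtN
import Vale.Agent.P216.H494.EGlue
import Vale.Agent.P216.H288.SweepHtpy

/-!
# P216-E: `RootStmt` from the two statements on chains
-/

set_option linter.all false

open Set Filter Topology
open scoped ComplexConjugate

namespace Vale.Agent.P216.H651.Rt

open Vale.Agent.P216.L250 Vale.Agent.P216.LS Vale.Agent.P216.H288

/-- A radius for all estimates. -/
theorem exists_R {M : Type*} [MetricSpace M] {κ : M → M → ℂ} {A r ρ : ℝ} (h : Ker κ A r)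
    (hρ : 0 < ρ) : ∃ R : ℝ, 0 < R ∧ R ≤ r ∧ R ≤ ρ ∧ 2 * A * R ^ 2 < 1 := by
  obtain ⟨r₀, h0, h1, h2⟩ := exists_radius h
  refine ⟨min r₀ ρ, lt_min h0 hρ, (min_le_left _ _).trans h1, min_le_right _ _, ?_⟩
  have hA := h.A_nonneg
  have h3 : 0 < min r₀ ρ := lt_min h0 hρ
  have h4 : min r₀ ρ ≤ r₀ := min_le_left _ _
  have h5 : min r₀ ρ ^ 2 ≤ r₀ ^ 2 := by gcongr
  nlinarith

/-- (SWd) -/
def SW (M : Type) [MetricSpace M] (ρ : ℝ) : Prop :=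
  ∀ {κ : M → M → ℂ} {A r R : ℝ} {x₀ x : M} {N : ℕ} (h : Ker κ A r), 0 < R → R ≤ r → R ≤ ρ →
    2 * A * R ^ 2 < 1 → (¬ ∃ b w μ, H826.IsSweep h.toHol x₀ b w μ) → ∀ {P : ℕ → M} {w : ℂ},
    J κ R x₀ x N P P w → w = 1

/-- (SCd) -/
def SC (M : Type) [MetricSpace M] (ρ : ℝ) : Prop :=
  ∀ {κ : M → M → ℂ} {A r R : ℝ} {x₀ x : M} {N : ℕ} (h : Ker κ A r), 0 < R → R ≤ r → R ≤ ρ →
    2 * A * R ^ 2 < 1 → ∀ {P Q : ℕ → M}, Ch x₀ x N (R / 3) P → Ch x₀ x N (R / 3) Q →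
    ∃ q, 0 < q ∧ ∃ w, J κ R x₀ x (N * q) (st q P) (st q Q) w

theorem rootStmt_of {M : Type} [MetricSpace M] [CompactSpace M] [PreconnectedSpace M] {ρ : ℝ}
    (hρ : 0 < ρ) (hU : UniqSeg M ρ) (hSW : SW M ρ) (hSC : SC M ρ) : H494E.RootStmt M := by
  intro κ A r h x₀ hno
  obtain ⟨R, hR0, hRr, hRρ, hRA⟩ := exists_R h hρ
  exact exists_root_of h hU hR0 hRr hRρ hRA (fun h' => hSW h hR0 hRr hRρ hRA hno h')
    (fun hP hQ => hSC h hR0 hRr hRρ hRA hP hQ)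
    (H494E.exists_chain_uniform x₀ (by linarith))

end Vale.Agent.P216.H651.Rt
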