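import Vale.Agent.P216.H651.Rt2
import Vale.Agent.P216.H288.SweepHtpy
import Mathlib.AlgebraicTopology.FundamentalGroupoid.SimplyConnected

/-!
# P216-E: two fine chains of a simply connected space are joined
-/

set_option linter.all false

open Set Filter Topology
open scoped ComplexConjugate unitInterval

namespace Vale.Agent.P216.H651.Rt

open Vale.Agent.P216.L250 Vale.Agent.P216.LS Vale.Agent.P216.H288

variable {M : Type*} [MetricSpace M] {κ : M → M → ℂ} {A r R ρ δ : ℝ} {x₀ x y : M} {N : ℕ}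

/-- The chain forwards and backwards. -/
def fb (N : ℕ) (P : ℕ → M) : ZMod (2 * N) → M := fun i => P (min i.val (2 * N - i.val))

theorem fb_natCast (hN : 0 < N) (P : ℕ → M) {a : ℕ} (ha : a ≤ N) :
    fb N P ((a : ℕ) : ZMod (2 * N)) = P a := by
  rw [fb, ZMod.val_natCast_of_lt (by omega)]
  congr 1
  omega

theorem fb_step (hN : 0 < N) {P : ℕ → M} (h : ∀ i, dist (P i) (P (i + 1)) < δ)
    (i : ZMod (2 * N)) : dist (fb N P i) (fb N P (i + 1)) < δ := by
  have : NeZero (2 * N) := ⟨by omega⟩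
  have h1 := ZMod.val_lt i
  have h2 : (i + 1).val = (i.val + 1) % (2 * N) := by
    rw [ZMod.val_add, ZMod.val_one_eq_one_mod, Nat.mod_eq_of_lt (show 1 < 2 * N by omega)]
  have key : min (i + 1).val (2 * N - (i + 1).val) = min i.val (2 * N - i.val) + 1 ∨
      min i.val (2 * N - i.val) = min (i + 1).val (2 * N - (i + 1).val) + 1 := by
    rcases Nat.lt_or_ge (i.val + 1) (2 * N) with h3 | h3
    · rw [h2, Nat.mod_eq_of_lt h3]
      omega
    · have h4 : i.val + 1 = 2 * N := by omega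
      rw [h2, h4, Nat.mod_self]
      omega
  rw [fb, fb]
  rcases key with h3 | h3
  · rw [h3]
    exact h _
  · rw [h3, dist_comm]
    exact h _

/-- The path through the points of a chain. -/
theorem exists_path [CompactSpace M] (hU : UniqSeg M ρ) (hδ : δ ≤ ρ) (hN : 0 < N) {P : ℕ → M}
    (hP : Ch x₀ x N δ P) : ∃ γ : Path x₀ x, ∀ q : ℕ, 0 < q → ∀ i : ℕ,
      dist (P (i / q)) (γ.extend ((i : ℝ) / ((N * q : ℕ) : ℝ))) < δ := by
  have : NeZero (2 * N) := ⟨by omega⟩
  have hN' : (0 : ℝ) < N := Nat.cast_pos.2 hN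
  have hδ0 : 0 < δ := dist_nonneg.trans_lt (hP.step 0)
  have hst : ∀ i, dist (fb N P i) (fb N P (i + 1)) < ρ := fun i =>
    (fb_step hN hP.step i).trans_le hδ
  have hc : Continuous (itp (fb N P)) := HasE.continuous' (hasE_itp hU hst)
  have e0 : itp (fb N P) (0 / 2) = x₀ := by
    have h1 := itp_int (fb N P) 0
    have h2 := fb_natCast hN P (Nat.zero_le N)
    rw [Int.cast_zero, zero_div, Int.cast_zero] at h1
    rw [Nat.cast_zero] at h2
    rw [zero_div, h1, h2, hP.zero]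
  have e1 : itp (fb N P) (1 / 2) = x := by
    have h1 := itp_int (fb N P) (N : ℤ)
    have h2 := fb_natCast hN P (le_refl N)
    have h3 : ((N : ℤ) : ℝ) / ((2 * N : ℕ) : ℝ) = 1 / 2 := by
      push_cast
      field_simp
    rw [h3] at h1
    rw [h1, Int.cast_natCast, h2, hP.last N le_rfl]
  refine ⟨⟨⟨fun t => itp (fb N P) ((t : ℝ) / 2), by fun_prop⟩, by simpa using e0, by simpa using e1⟩,
    fun q hq i => ?_⟩
  have hq' : (0 : ℝ) < q := Nat.cast_pos.2 hq
  have hNq : (0 : ℝ) < ((N * q : ℕ) : ℝ) := by exact_mod_cast Nat.mul_pos hN hq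
  rcases Nat.lt_or_ge i (N * q) with hi | hi
  · have hm : (i : ℝ) / ((N * q : ℕ) : ℝ) ∈ Icc (0 : ℝ) 1 := ⟨by positivity, by
      rw [div_le_one hNq]; exact_mod_cast hi.le⟩
    rw [Path.extend_apply _ hm]
    show dist (P (i / q)) (itp (fb N P) ((i : ℝ) / ((N * q : ℕ) : ℝ) / 2)) < δ
    have h1 : i / q < N := (Nat.div_lt_iff_lt_mul hq).2 hi
    have h2 : (i : ℝ) = (i / q : ℕ) * q + (i % q : ℕ) := by
      have := Nat.div_add_mod i q
      have h3 : ((q * (i / q) + i % q : ℕ) : ℝ) = i := by exact_mod_cast this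
      push_cast at h3 ⊢
      linarith
    have h4 : ((i % q : ℕ) : ℝ) / q ∈ Icc (0 : ℝ) 1 := by
      refine ⟨by positivity, ?_⟩
      rw [div_le_one hq']
      exact_mod_cast (Nat.mod_lt i hq).le
    have h3 : (i : ℝ) / ((N * q : ℕ) : ℝ) / 2 =
        ((((i / q : ℕ) : ℤ) : ℝ) + ((i % q : ℕ) : ℝ) / q) / ((2 * N : ℕ) : ℝ) := by
      rw [h2, Int.cast_natCast]
      generalize i / q = a
      generalize i % q = c
      push_cast
      field_simp
    have h5 : (((i / q : ℕ) : ℤ) : ZMod (2 * N)) = ((i / q : ℕ) : ZMod (2 * N)) :=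
      Int.cast_natCast _
    have h6 : ((i / q : ℕ) : ZMod (2 * N)) + 1 = ((i / q + 1 : ℕ) : ZMod (2 * N)) :=
      (Nat.cast_succ _).symm
    rw [h3, itp_apply _ _ h4, h5, h6, fb_natCast hN P h1.le, fb_natCast hN P h1]
    have h7 : dist (P (i / q)) (P (i / q + 1)) < δ := hP.step _
    rw [dist_left_seg hU (h7.trans_le hδ) h4]
    exact (mul_le_of_le_one_left dist_nonneg h4.2).trans_lt h7
  · have h1 : N ≤ i / q := (Nat.le_div_iff_mul_le hq).2 hi
    have h2 : (1 : ℝ) ≤ (i : ℝ) / ((N * q : ℕ) : ℝ) := by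
      rw [one_le_div hNq]
      exact_mod_cast hi
    rw [Path.extend_of_one_le _ h2, hP.last _ h1, dist_self]
    exact hδ0

/-- **Two fine chains of a simply connected space are joined.** -/
theorem exists_J [CompactSpace M] [SimplyConnectedSpace M] (h : Ker κ A r) (hU : UniqSeg M ρ)
    (hR0 : 0 < R) (hRr : R ≤ r) (hRρ : R ≤ ρ) (hRA : 2 * A * R ^ 2 < 1) {P Q : ℕ → M}
    (hP : Ch x₀ x N (R / 3) P) (hQ : Ch x₀ x N (R / 3) Q) :
    ∃ q, 0 < q ∧ ∃ w, J κ R x₀ x (N * q) (st q P) (st q Q) w := by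
  rcases Nat.eq_zero_or_pos N with rfl | hN
  · have e : P = Q := by
      funext i
      rw [hP.last i (Nat.zero_le _), hQ.last i (Nat.zero_le _)]
    subst e
    exact ⟨1, one_pos, 1, J.refl ((hP.mono le_rfl (by linarith)).st one_pos)⟩
  obtain ⟨γ, hγ⟩ := exists_path hU (by linarith) hN hP
  obtain ⟨γ', hγ'⟩ := exists_path hU (by linarith) hN hQ
  obtain ⟨F⟩ := SimplyConnectedSpace.paths_homotopic γ γ'
  let G : ℝ → ℝ → M := fun s t =>
    F (projIcc (0 : ℝ) 1 zero_le_one s, projIcc (0 : ℝ) 1 zero_le_one t)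
  have hG : Continuous (fun q : ℝ × ℝ => G q.1 q.2) := by
    refine F.continuous.comp (Continuous.prodMk ?_ ?_)
    · exact continuous_projIcc.comp continuous_fst
    · exact continuous_projIcc.comp continuous_snd
  have hG' : Continuous (fun q : ℝ × ℝ => G q.2 q.1) := hG.comp continuous_swap
  have hG0 : ∀ t, G 0 t = γ.extend t := by
    intro t
    show F (projIcc (0 : ℝ) 1 zero_le_one 0, _) = γ (projIcc (0 : ℝ) 1 zero_le_one t)
    rw [projIcc_left]
    exact F.apply_zero _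
  have hG1 : ∀ t, G 1 t = γ'.extend t := by
    intro t
    show F (projIcc (0 : ℝ) 1 zero_le_one 1, _) = γ' (projIcc (0 : ℝ) 1 zero_le_one t)
    rw [projIcc_right]
    exact F.apply_one _
  have hGx : ∀ s t, 1 ≤ t → G s t = x := by
    intro s t ht
    show F (_, projIcc (0 : ℝ) 1 zero_le_one t) = x
    rw [projIcc_of_right_le _ ht]
    exact F.target _
  have hGz : ∀ s, G s 0 = x₀ := by
    intro s
    show F (_, projIcc (0 : ℝ) 1 zero_le_one 0) = x₀
    rw [projIcc_left]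
    exact F.source _
  have hR3 : 0 < R / 3 := by linarith
  obtain ⟨n₁, H₁⟩ := exists_fine (isCompact_Icc (a := (0 : ℝ)) (b := 1)) (F := G)
    hG.continuousOn hR3
  obtain ⟨n₂, H₂⟩ := exists_fine (isCompact_Icc (a := (0 : ℝ)) (b := 1)) (F := fun t s => G s t)
    hG'.continuousOn hR3
  set q : ℕ := n₁ + 1 with hq
  set m : ℕ := n₂ + 1 with hm
  have hq0 : 0 < q := by omega
  have hm0 : (0 : ℝ) < m := by rw [hm]; positivity
  have hNq : 0 < N * q := Nat.mul_pos hN hq0
  have hNq' : (0 : ℝ) < ((N * q : ℕ) : ℝ) := by exact_mod_cast hNq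
  have hn1 : n₁ ≤ N * q := by
    calc n₁ ≤ q := by omega
      _ = 1 * q := (one_mul q).symm
      _ ≤ N * q := Nat.mul_le_mul_right q hN
  let row : ℕ → ℕ → M := fun k i => G ((k : ℝ) / m) ((i : ℝ) / ((N * q : ℕ) : ℝ))
  have hge : ∀ i : ℕ, N * q ≤ i → (1 : ℝ) ≤ (i : ℝ) / ((N * q : ℕ) : ℝ) := fun i hi => by
    rw [one_le_div hNq']
    exact_mod_cast hi
  have hrow : ∀ k ≤ m, Ch x₀ x (N * q) (R / 3) (row k) := by
    intro k hk
    have hk' : (k : ℝ) / m ∈ Icc (0 : ℝ) 1 := ⟨by positivity, by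
      rw [div_le_one hm0]; exact_mod_cast hk⟩
    refine ⟨?_, fun i hi => hGx _ _ (hge i hi), fun i => ?_⟩
    · show G _ (((0 : ℕ) : ℝ) / ((N * q : ℕ) : ℝ)) = x₀
      rw [Nat.cast_zero, zero_div]
      exact hGz _
    · rcases Nat.lt_or_ge i (N * q) with hi | hi
      · exact H₁ (N * q) hn1 _ hk' i hi
      · show dist (G _ _) (G _ _) < R / 3
        rw [hGx _ _ (hge i hi), hGx _ _ (hge (i + 1) (by omega)), dist_self]
        exact hR3
  have hrr : ∀ k < m, ∀ i, dist (row k i) (row (k + 1) i) < R / 3 := by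
    intro k hk i
    rcases Nat.lt_or_ge i (N * q) with hi | hi
    · have hm' : (i : ℝ) / ((N * q : ℕ) : ℝ) ∈ Icc (0 : ℝ) 1 := ⟨by positivity, by
        rw [div_le_one hNq']; exact_mod_cast hi.le⟩
      exact H₂ m (by omega) _ hm' k hk
    · show dist (G _ _) (G _ _) < R / 3
      rw [hGx _ _ (hge i hi), hGx _ _ (hge i hi), dist_self]
      exact hR3
  have key : ∀ k ≤ m, ∃ w, J κ R x₀ x (N * q) (row 0) (row k) w := by
    intro k
    induction k with
    | zero => exact fun _ => ⟨1, J.refl ((hrow 0 (Nat.zero_le _)).mono le_rfl (by linarith))⟩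
    | succ k ih =>
      intro hk
      obtain ⟨w, hw⟩ := ih (by omega)
      exact ⟨_, hw.trans h (J_move h hU hR0 hRr hRρ hRA (hrow k (by omega)) (hrow (k + 1) hk)
        (hrr k (by omega)))⟩
  obtain ⟨w, hw⟩ := key m le_rfl
  have hs : ∀ i, dist (st q P i) (row 0 i) < R / 3 := by
    intro i
    show dist (P (i / q)) (G (((0 : ℕ) : ℝ) / m) _) < R / 3
    rw [Nat.cast_zero, zero_div, hG0]
    exact hγ q hq0 i
  have hs' : ∀ i, dist (row m i) (st q Q i) < R / 3 := by
    intro i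
    show dist (G ((m : ℝ) / m) _) (Q (i / q)) < R / 3
    rw [div_self hm0.ne', hG1, dist_comm]
    exact hγ' q hq0 i
  refine ⟨q, hq0, _, ((J_move h hU hR0 hRr hRρ hRA (hP.st hq0) (hrow 0 (Nat.zero_le _)) hs).trans h
    hw).trans h (J_move h hU hR0 hRr hRρ hRA (hrow m le_rfl) (hQ.st hq0) hs')⟩

end Vale.Agent.P216.H651.Rt
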