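import Vale.Agent.P216.H651.RtSWb
import Vale.Agent.P216.H651.RtSC

/-!
# P216-E: `RootStmt`: square roots of a transport kernel without sweeps
-/

set_option linter.all false

open Set Filter Topology
open scoped ComplexConjugate

namespace Vale.Agent.P216.H651.Rt

open Vale.Agent.P216.L250 Vale.Agent.P216.LS Vale.Agent.P216.H288

/-- **The square root of a transport kernel without sweeps.** -/
theorem rootStmt {M : Type} [MetricSpace M] [CompactSpace M] [SimplyConnectedSpace M] {ρ : ℝ}
    (hρ : 0 < ρ) (hU : UniqSeg M ρ) : H494E.RootStmt M :=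
  rootStmt_of hρ hU
    (fun h hR0 hRr hRρ hRA hno _ _ hJ => J.uniqueb h hρ hU hR0 hRr hRρ hRA hno hJ)
    fun h hR0 hRr hRρ hRA _ _ hP hQ => exists_J h hU hR0 hRr hRρ hRA hP hQ

end Vale.Agent.P216.H651.Rt
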