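import Vale.Agent.P216.H651.Rt5

/-!
# P216-E: no sweep: the factor of a closed family of chains is `1`
-/

set_option linter.all false

open Set Filter Topology
open scoped ComplexConjugate

namespace Vale.Agent.P216.H651.Rt

open Vale.Agent.P216.L250 Vale.Agent.P216.LS Vale.Agent.P216.H288

section

variable {M : Type*} [MetricSpace M] {κ : M → M → ℂ} {A r R ρ δ : ℝ} {x₀ x y : M} {N : ℕ}

/-- Chain forward, then the fixed chain backward. -/
def bk (N : ℕ) (F P : ℕ → M) : ℕ → M := fun i => if i ≤ N then F i else P (2 * N - i)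

theorem bk_left {F P : ℕ → M} {i : ℕ} (h : i ≤ N) : bk N F P i = F i := if_pos h

theorem bk_right {F P : ℕ → M} (e : F N = P N) {i : ℕ} (h : N ≤ i) :
    bk N F P i = P (2 * N - i) := by
  rcases h.eq_or_lt with rfl | h
  · rw [bk_left le_rfl, e]
    congr 1
    omega
  · exact if_neg (by omega)

theorem bp_bk (h : Ker κ A r) {F P : ℕ → M} (e : F N = P N) :
    bp κ (2 * N) (bk N F P) = bp κ N F * conj (bp κ N P) := by
  rw [two_mul, bp, Finset.prod_range_add, bp, bp, map_prod]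
  congr 1
  · refine Finset.prod_congr rfl fun i hi => ?_
    have := Finset.mem_range.1 hi
    rw [bk_left (by omega), bk_left (by omega)]
  · rw [← Finset.prod_range_reflect]
    refine Finset.prod_congr rfl fun i hi => ?_
    have := Finset.mem_range.1 hi
    rw [bk_right e (by omega), bk_right e (by omega), ← h.symm]
    congr 2 <;> omega

theorem bk_step {F P : ℕ → M} (hF : Ch x₀ x N R F) (hP : Ch x₀ x N R P) (i : ℕ)
    (hi : i < 2 * N) : dist (bk N F P i) (bk N F P (i + 1)) < R := by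
  have e : F N = P N := by rw [hF.last N le_rfl, hP.last N le_rfl]
  rcases Nat.lt_or_ge i N with h1 | h1
  · rw [bk_left h1.le, bk_left h1]
    exact hF.step i
  · rw [bk_right e h1, bk_right e (by omega), dist_comm]
    have := hP.step (2 * N - (i + 1))
    rwa [show 2 * N - (i + 1) + 1 = 2 * N - i by omega] at this

end

variable {M : Type*} [MetricSpace M] [CompactSpace M] {κ : M → M → ℂ} {A r R ρ δ : ℝ}
  {x₀ x y : M} {N : ℕ}

/-- **(SWd)** -/
theorem J.uniqueb (h : Ker κ A r) (hρ : 0 < ρ) (hU : UniqSeg M ρ) (hR0 : 0 < R) (hRr : R ≤ r)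
    (hRρ : R ≤ ρ) (hRA : 2 * A * R ^ 2 < 1)
    (hno : ¬ ∃ b w μ, H826.IsSweep h.toHol x₀ b w μ) {P : ℕ → M} {w : ℂ}
    (hJ : J κ R x₀ x N P P w) : w = 1 := by
  have hJ' := hJ.mono h (Nat.le_succ N)
  obtain ⟨n, hn, hn0⟩ : ∃ n, n = N + 1 ∧ 0 < n := ⟨N + 1, rfl, by omega⟩
  rw [Nat.succ_eq_add_one, ← hn] at hJ'
  have hsq := hJ'.sq h
  rw [mul_conj_of_norm (norm_bp h _ _)] at hsq
  rcases (sq_eq_sq_iff_eq_or_eq_neg.1 (hsq.trans (one_pow 2).symm)) with h1 | h1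
  · exact h1
  exfalso
  apply hno
  obtain ⟨z, hw, hz⟩ := hJ'
  rw [h1, map_neg, map_one, mul_neg, mul_one] at hz
  have hP : Ch x₀ x n R P := hz.source_mem.1
  have hzP : z ^ 2 = bp κ n P := hz.source_mem.2
  have hz1 : ‖z‖ = 1 := norm_of_sq h hzP
  obtain ⟨γ, hγ⟩ := hz
  set p : ℝ → (ℕ → M) × ℂ := fun τ => γ.extend τ with hp
  have hpc : Continuous p := γ.extend.continuous
  have hpZ : ∀ τ ∈ Icc (0 : ℝ) 1, p τ ∈ Z κ R x₀ x n := fun τ hτ => by
    have e : p τ = γ ⟨τ, hτ⟩ := γ.extend_apply hτ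
    rw [e]
    exact hγ _
  have hp0 : p 0 = (P, z) := γ.extend_zero
  have hp1 : p 1 = (P, -z) := γ.extend_one
  have hK : 0 < 2 * n := by omega
  have : NeZero (2 * n) := ⟨hK.ne'⟩
  set V : ℝ → ℕ → M := fun τ => bk n (p τ).1 P with hV
  have hVe : ∀ τ ∈ Icc (0 : ℝ) 1, (p τ).1 n = P n := fun τ hτ => by
    rw [(hpZ τ hτ).1.last n le_rfl, hP.last n le_rfl]
  have hV0 : ∀ τ ∈ Icc (0 : ℝ) 1, V τ 0 = x₀ := fun τ hτ => by
    rw [hV]
    show bk n (p τ).1 P 0 = x₀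
    rw [bk_left (Nat.zero_le _), (hpZ τ hτ).1.zero]
  have hVl : ∀ τ ∈ Icc (0 : ℝ) 1, V τ (2 * n) = x₀ := fun τ hτ => by
    show bk n (p τ).1 P (2 * n) = x₀
    rw [bk_right (hVe τ hτ) (by omega), Nat.sub_self, hP.zero]
  have hVs : ∀ τ ∈ Icc (0 : ℝ) 1, ∀ i < 2 * n, dist (V τ i) (V τ (i + 1)) < R :=
    fun τ hτ i hi => bk_step (hpZ τ hτ).1 hP i hi
  have hVc : ∀ i, ContinuousOn (fun τ => V τ i) (Icc 0 1) := by
    intro i
    by_cases hi : i ≤ n
    · have e : (fun τ => V τ i) = fun τ => (p τ).1 i := funext fun τ => bk_left hi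
      rw [e]
      exact ((continuous_apply i).comp (continuous_fst.comp hpc)).continuousOn
    · have e : (fun τ => V τ i) = fun τ => P (2 * n - i) := funext fun τ => if_neg hi
      rw [e]
      exact continuousOn_const
  set X : ℝ → ZMod (2 * n) → M := fun τ i => V τ i.val with hX
  have hXn : ∀ τ ∈ Icc (0 : ℝ) 1, ∀ i : ℕ, i ≤ 2 * n → X τ (i : ZMod (2 * n)) = V τ i := by
    intro τ hτ i hi
    rcases hi.eq_or_lt with rfl | hi
    · show V τ (((2 * n : ℕ) : ZMod (2 * n)).val) = _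
      rw [ZMod.natCast_self, ZMod.val_zero, hV0 τ hτ, hVl τ hτ]
    · show V τ ((i : ZMod (2 * n)).val) = _
      rw [ZMod.val_natCast_of_lt hi]
  have hXs : ∀ τ ∈ Icc (0 : ℝ) 1, ∀ i, dist (X τ i) (X τ (i + 1)) < ρ := by
    intro τ hτ i
    obtain ⟨m, hm, rfl⟩ : ∃ m : ℕ, m < 2 * n ∧ (m : ZMod (2 * n)) = i :=
      ⟨i.val, ZMod.val_lt i, ZMod.natCast_zmod_val i⟩
    have h2 : ((m : ZMod (2 * n)) + 1) = ((m + 1 : ℕ) : ZMod (2 * n)) := by push_cast; rfl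
    rw [h2, hXn τ hτ m hm.le, hXn τ hτ (m + 1) hm]
    exact (hVs τ hτ m hm).trans_le hRρ
  set g : ℝ → ℝ → M := fun τ t => fn (itpL (X τ)) t with hg
  have hgc : ContinuousOn (fun q : ℝ × ℝ => g q.1 q.2) (Icc 0 1 ×ˢ Icc 0 1) := by
    have c1 : ContinuousOn (fun τ => itpL (X τ)) (Icc (0 : ℝ) 1) :=
      continuousOn_itpL' hU hρ (fun i => hVc i.val) hXs
    exact continuous_fn_apply.comp_continuousOn
      ((c1.comp continuousOn_fst fun q hq => hq.1).prodMk continuousOn_snd)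
  have hgs : ∀ τ ∈ Icc (0 : ℝ) 1, ∀ i : ℕ, i ≤ 2 * n → g τ ((i : ℝ) / (2 * n : ℕ)) = V τ i := by
    intro τ hτ i hi
    show fn (itpL (X τ)) _ = _
    rw [fn_itpL' hU (hXs τ hτ)]
    have := itp_int (X τ) (i : ℤ)
    rw [Int.cast_natCast, Int.cast_natCast] at this
    rw [this, hXn τ hτ i hi]
  have hKr : ((2 * n : ℕ) : ℝ) ≠ 0 := Nat.cast_ne_zero.2 hK.ne'
  have hg0 : ∀ τ ∈ Icc (0 : ℝ) 1, g τ 0 = x₀ := fun τ hτ => by
    have := hgs τ hτ 0 (Nat.zero_le _)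
    rw [Nat.cast_zero, zero_div] at this
    rw [this, hV0 τ hτ]
  have hg1 : ∀ τ ∈ Icc (0 : ℝ) 1, g τ 1 = g τ 0 := fun τ hτ => fn_one _
  have hgp : ∀ t ∈ Icc (0 : ℝ) 1, g 1 t = g 0 t := fun t _ => by
    show fn (itpL (X 1)) t = fn (itpL (X 0)) t
    have : X 1 = X 0 := by
      funext i
      show bk n (p 1).1 P _ = bk n (p 0).1 P _
      rw [hp0, hp1]
    rw [this]
  have hst : ∀ τ ∈ Icc (0 : ℝ) 1, ∀ i < 2 * n,
      dist (g τ ((i : ℝ) / (2 * n : ℕ))) (g τ (((i + 1 : ℕ) : ℝ) / (2 * n : ℕ))) < R := by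
    intro τ hτ i hi
    rw [hgs τ hτ i hi.le, hgs τ hτ (i + 1) hi]
    exact hVs τ hτ i hi
  have hpar : Par (-1) (fun τ => bp κ (2 * n) (fun i => id (g τ ((i : ℝ) / (2 * n : ℕ))))) := by
    refine ⟨fun τ => (p τ).2 * conj z, ?_, fun τ hτ => ?_, ?_⟩
    · exact ((continuous_snd.comp hpc).mul continuous_const).continuousOn
    · have e1 : bp κ (2 * n) (fun i => id (g τ ((i : ℝ) / (2 * n : ℕ)))) =
          bp κ (2 * n) (V τ) := bp_congr fun i hi => hgs τ hτ i hi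
      have e2 : (p τ).2 ^ 2 = bp κ n (p τ).1 := (hpZ τ hτ).2
      show ((p τ).2 * conj z) ^ 2 = bp κ (2 * n) (fun i => id (g τ ((i : ℝ) / (2 * n : ℕ))))
      rw [e1]
      show ((p τ).2 * conj z) ^ 2 = bp κ (2 * n) (bk n (p τ).1 P)
      rw [bp_bk h (hVe τ hτ), mul_pow, e2, ← map_pow, hzP]
    · show (p 1).2 * conj z = -1 * ((p 0).2 * conj z)
      rw [hp0, hp1]
      ring
  obtain ⟨b, hb, u, lam, hu⟩ := exists_weakSweep_of_par (Ψ := id) (L := 1) (r₀ := R) h hρ hU hgc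
    hg1 hg0 hgp one_pos (fun x y => by rw [one_mul]; rfl) hRr hRA hK
    (fun τ hτ i hi => (hst τ hτ i hi).trans_le hRρ)
    (fun τ hτ i hi => by rw [one_mul]; exact hst τ hτ i hi) hpar h
  obtain ⟨w', μ', hs⟩ := hu.exists_isSweep hb
  exact ⟨_, w', μ', hs⟩

end Vale.Agent.P216.H651.Rt
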