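import Vale.Agent.P216.B609.FinB
import Vale.Agent.P216.H804.D6

/-!
# P216, level bound, finiteness and bounded finite bars over one field

The statements of `B609/FinB.lean` and `H804/D6.lean` for one arbitrary field `k`
(characteristic two included).
-/

open Set Topology
open Module (finrank)

namespace Vale.Agent.P216.GSys

open Vale.Agent.P265.AS (hh hh_triple hh_self)
open H804 B609

variable {Λ : Type} [PseudoMetricSpace Λ] (S : GSys Λ) (k : Type) [Field k]

/-- The contribution of every critical level to the cohomology over `k` is at most `C`. -/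
def LevelBoundK : Prop := ∃ C : ℕ, ∀ c : ℝ, 0 < c → c ∈ AS.Crit S.ℓ → ∃ e₀ > 0,
  ∀ s t, c - e₀ < s → s < c → c < t → t < c + e₀ → ∀ m : ℕ,
    ∑ q ∈ Finset.range m, hh S.τ (-1 : k) (S.X t) (S.X s) q ≤ (C : Cardinal)

/-- The images of the restriction maps are stable after a shift by `B`. -/
def StableBarsK (B : ℝ) : Prop := ∀ s t : ℝ, 0 < s →
  ∀ (h : s ≤ s + B) (h' : s + B ≤ t) (n : ℕ),
    LinearMap.range (S.rV k h n) ≤ LinearMap.range (S.rV k (h.trans h') n)

/-- Finiteness at a low level. -/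
def BaseFinK : Prop := ∃ s₀ : ℝ, 0 < s₀ ∧ (∀ i, s₀ < S.ℓ i) ∧
  (∀ n, Module.Finite k (S.V k s₀ n)) ∧ ∃ N, ∀ n ≥ N, Subsingleton (S.V k s₀ n)

variable {S k}

theorem exists_sum_hh_leK (hL : S.LevelBoundK k) (L : ℝ) : ∃ K : ℕ,
    ∀ s t : ℝ, 0 < s → s ≤ t → t ≤ s + L → s ∉ AS.Crit S.ℓ → t ∉ AS.Crit S.ℓ → ∀ m : ℕ,
    ∑ q ∈ Finset.range m, hh S.τ (-1 : k) (S.X t) (S.X s) q ≤ (K : Cardinal) := by
  have := S.fin
  obtain ⟨inst⟩ := nonempty_fintype S.ι
  obtain ⟨C, hC⟩ := hL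
  refine ⟨(∑ i, (⌊L / S.ℓ i⌋₊ + 1)) * C, fun s t hs hst htL hsc htc m => ?_⟩
  obtain ⟨F, hF, hFc⟩ := exists_finset_crit S.ℓ_pos (s := s) (t := t) (L := L) (by linarith)
  refine (S.sum_hh_le hC hs hsc m F.card F rfl t hst htc hF).trans ?_
  exact_mod_cast Nat.mul_le_mul_right C hFc

/-- Finiteness at all regular levels. -/
theorem finite_of_levelBoundK (hL : S.LevelBoundK k) (h0 : S.BaseFinK k) (s : ℝ) (hs : 0 < s)
    (hsc : s ∉ AS.Crit S.ℓ) :
    (∀ n, Module.Finite k (S.V k s n)) ∧ ∃ N, ∀ n ≥ N, Subsingleton (S.V k s n) := by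
  obtain ⟨s₀, hs₀, hℓ, h1, N, hN⟩ := h0
  rcases le_total s s₀ with h | h
  · have hb := fun n => S.res_bijective (k := k) hs h
      (fun a ha => S.not_crit_of_lt' hℓ ha.2) (S.mono _ _ h) n
    refine ⟨fun n => ?_, N, fun n hn => ?_⟩
    · have := h1 n
      exact Module.Finite.of_surjective _ (hb n).2
    · have := hN n hn
      exact (hb n).2.subsingleton
  · obtain ⟨K, hK⟩ := exists_sum_hh_leK hL (s - s₀)
    have hsum := hK s₀ s hs₀ h (by linarith) (S.not_crit_of_lt' hℓ le_rfl) hsc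
    have hle : ∀ n, Module.rank k (S.V k s n) ≤
        Module.rank k (S.V k s₀ n) + hh S.τ (-1 : k) (S.X s) (S.X s₀) n := by
      intro n
      rw [H804.rank_Ha, H804.rank_Ha]
      exact hh_triple (empty_subset _) (S.mono _ _ h) (S.inv_X s₀) _ n
    obtain ⟨N', hN'⟩ := eventually_zero hsum
    refine ⟨fun n => ?_, max N N', fun n hn => ?_⟩
    · rw [← Module.rank_lt_aleph0_iff]
      refine (hle n).trans_lt (Cardinal.add_lt_aleph0 ?_ ?_)
      · have := h1 n
        exact Module.rank_lt_aleph0 _ _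
      · refine lt_of_le_of_lt ?_ (Cardinal.natCast_lt_aleph0 (n := K))
        refine le_trans ?_ (hsum (n + 1))
        exact Finset.single_le_sum (f := fun n => hh S.τ (-1 : k) (S.X s) (S.X s₀) n)
          (fun _ _ => zero_le) (Finset.self_mem_range_succ n)
    · have h2 := hle n
      have := hN n ((le_max_left _ _).trans hn)
      have h3 : Module.rank k (S.V k s₀ n) = 0 := rank_zero_iff.2 this
      rw [hN' n ((le_max_right _ _).trans hn), add_zero, h3] at h2
      exact rank_zero_iff.1 (le_antisymm h2 zero_le)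

/-- The dimension of the finite bars is bounded, uniformly in the level. -/
theorem bars_of_levelBoundK (hL : S.LevelBoundK k) {B : ℝ} (_hB0 : 0 ≤ B) (hB : S.StableBarsK k B)
    (h0 : S.BaseFinK k) : ∃ K : ℕ, ∀ s : ℝ, 0 < s →
      s ∉ AS.Crit S.ℓ → ∀ (t : ℝ) (h : s ≤ t), s + B ≤ t → ∀ m : ℕ,
        ∑ n ∈ Finset.range m, (finrank k (S.V k s n) -
          finrank k (LinearMap.range (S.rV k h n))) ≤ K := by
  obtain ⟨K, hK⟩ := exists_sum_hh_leK hL (B + 1)
  refine ⟨K, fun s hs hsc t hst hBt m => ?_⟩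
  obtain ⟨T, hT, hTc⟩ := S.exists_reg_level (a := s + B) (b := s + (B + 1)) (by linarith)
  have hsT : s ≤ T := by linarith [hT.1]
  have hsum := hK s T hs hsT hT.2 hsc hTc (m + 1)
  have hfin := (finite_of_levelBoundK hL h0 s hs hsc).1
  have hle : ∀ n, ((finrank k (S.V k s n) -
      finrank k (LinearMap.range (S.rV k hst n)) : ℕ) : Cardinal) ≤
      hh S.τ (-1 : k) (S.X T) (S.X s) (n + 1) := by
    intro n
    have := hfin n
    obtain ⟨δ, hδ⟩ := exists_del (k := k) (χ := fun _ : Unit => (-1 : k))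
      (S.mono _ _ hsT) (S.inv_τ s) n
    have h1 := rank_quot_le hδ
    rw [AS.rank_Hr] at h1
    refine le_trans ?_ h1
    have h2 : LinearMap.range (S.rV k hsT n) ≤ LinearMap.range (S.rV k hst n) :=
      (S.range_rV_le (k := k) (show s ≤ s + B by linarith) hT.1 n).trans
        (hB s t hs (by linarith) hBt n)
    have h3 : finrank k (S.V k s n) - finrank k (LinearMap.range (S.rV k hst n)) ≤
        finrank k (S.V k s n ⧸ LinearMap.range (S.rV k hsT n)) := by
      have h4 := Submodule.finrank_mono h2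
      have h5 := Submodule.finrank_quotient_add_finrank (LinearMap.range (S.rV k hsT n))
      omega
    calc _ ≤ ((finrank k (S.V k s n ⧸ LinearMap.range (S.rV k hsT n)) : ℕ) : Cardinal) := by
          exact_mod_cast h3
      _ = _ := Module.finrank_eq_rank _ _
  have h1 : ((∑ n ∈ Finset.range m, (finrank k (S.V k s n) -
      finrank k (LinearMap.range (S.rV k hst n))) : ℕ) : Cardinal) ≤ K := by
    push_cast
    refine le_trans (Finset.sum_le_sum fun n _ => hle n) ?_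
    rw [Finset.sum_range_succ'] at hsum
    exact le_self_add.trans hsum
  exact_mod_cast h1

end Vale.Agent.P216.GSys

namespace Vale.Agent.P216.GM

open Vale.Agent.P265.AS Vale.Agent.P216.H41 L250 LS H288 H494

variable {M : Type} [MetricSpace M]

/-- The bound of every critical level, one constant for all fields. -/
theorem levelBoundAll [CompactSpace M] (hF1 : F1 M) (hLOC : LOC M) (hTW : TW M) (H : Hol M)
    (G : GeoList M) (hD : DescentStmt H G) : ∃ C : ℕ, ∀ c : ℝ, 0 < c → ∃ e₀ > 0,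
      ∀ s t, c - e₀ < s → s < c → c < t → t < c + e₀ → ∀ (k : Type) [Field k] (m : ℕ),
        ∑ q ∈ Finset.range m,
          hh (mkGSys H G hD).τ (-1 : k) ((mkGSys H G hD).X t) ((mkGSys H G hD).X s) q ≤
            (C : Cardinal) := by
  classical
  obtain ⟨N, hN⟩ := hLOC G
  refine ⟨(Nat.card G.ι + Nat.card G.ι) * N, fun c hc => ?_⟩
  obtain ⟨R₁, hK₁, hU₁, hd₁, hc₁⟩ := exists_orbits_card G (e := 1) (a := c) (Or.inl rfl) hc
  obtain ⟨R₂, hK₂, hU₂, hd₂, hc₂⟩ := exists_orbits_card G (e := -1) (a := c) (Or.inr rfl) hc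
  have hdis := disjoint_KK (G := G) hc
  have hD' : ∀ g : LM M, ∃ D : ℕ → ℕ, (g ∈ R₁ ∪ R₂ → Tot D N ∧ LR (XL M) c (orb g) D) := by
    intro g
    by_cases hg : g ∈ R₁ ∪ R₂
    · rcases Finset.mem_union.1 hg with h | h
      · obtain ⟨D, hD⟩ := hN 1 c (Or.inl rfl) hc g (hK₁ h)
        exact ⟨D, fun _ => hD⟩
      · obtain ⟨D, hD⟩ := hN (-1) c (Or.inr rfl) hc g (hK₂ h)
        exact ⟨D, fun _ => hD⟩
    · exact ⟨0, fun h => absurd h hg⟩
  choose D hD' using hD'
  obtain ⟨e₀, he₀, h⟩ := hF1 H G c hc (R₁ ∪ R₂) (by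
      rw [Finset.coe_union]
      exact union_subset_union hK₁ hK₂) (by
      rw [Finset.set_biUnion_union, ← hU₁, ← hU₂]) (by
      intro g hg g' hg' hne
      rcases Finset.mem_union.1 hg with h1 | h1 <;> rcases Finset.mem_union.1 hg' with h2 | h2
      · exact hd₁ g h1 g' h2 hne
      · exact hdis.mono (orb_subset_KK (hK₁ h1)) (orb_subset_KK (hK₂ h2))
      · exact hdis.symm.mono (orb_subset_KK (hK₂ h1)) (orb_subset_KK (hK₁ h2))
      · exact hd₂ g h1 g' h2 hne) D (by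
      intro g hg
      rcases Finset.mem_union.1 hg with h1 | h1
      · exact hTW H G 1 c (Or.inl rfl) hc g (hK₁ h1) _ (hD' g hg).2
      · exact hTW H G (-1) c (Or.inr rfl) hc g (hK₂ h1) _ (hD' g hg).2)
  refine ⟨e₀, he₀, fun s t h1 h2 h3 h4 k _ m => ?_⟩
  calc ∑ q ∈ Finset.range m, hh deckC (-1 : k) (XT H t) (XT H s) q
      ≤ ∑ q ∈ Finset.range m, ((∑ g ∈ R₁ ∪ R₂, D g q : ℕ) : Cardinal) :=
        Finset.sum_le_sum fun q _ => h s t h1 h2 h3 h4 k q
    _ = ((∑ g ∈ R₁ ∪ R₂, ∑ q ∈ Finset.range m, D g q : ℕ) : Cardinal) := by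
        rw [← Nat.cast_sum, Finset.sum_comm]
    _ ≤ (((Nat.card G.ι + Nat.card G.ι) * N : ℕ) : Cardinal) := by
        have h5 : ∑ g ∈ R₁ ∪ R₂, ∑ q ∈ Finset.range m, D g q ≤ ∑ _g ∈ R₁ ∪ R₂, N :=
          Finset.sum_le_sum fun g hg => (hD' g hg).1 m
        rw [Finset.sum_const, smul_eq_mul] at h5
        have h6 := (Finset.card_union_le R₁ R₂).trans (add_le_add hc₁ hc₂)
        exact_mod_cast h5.trans (Nat.mul_le_mul_right N h6)

/-- The level bound over one field. -/
theorem levelBoundK (k : Type) [Field k] [CompactSpace M] (hF1 : F1 M) (hLOC : LOC M)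
    (hTW : TW M) (H : Hol M) (G : GeoList M) (hD : DescentStmt H G) :
    (mkGSys H G hD).LevelBoundK k := by
  obtain ⟨C, hC⟩ := levelBoundAll hF1 hLOC hTW H G hD
  refine ⟨C, fun c hc _ => ?_⟩
  obtain ⟨e₀, he₀, h⟩ := hC c hc
  exact ⟨e₀, he₀, fun s t h1 h2 h3 h4 m => h s t h1 h2 h3 h4 k m⟩

end Vale.Agent.P216.GM
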