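import Vale.Agent.P216.H651.TwoBase

/-!
# P216, the cohomology of the sublevels of the loop space over one arbitrary field

Finiteness, regular levels, bounded finite bars for `HU k (XL M t) n` (no symmetries), for a
metric on a manifold homeomorphic to a sphere; `k` is any field (`F₂` included).
-/

open Set Topology
open Module (finrank)

namespace Vale.Agent.P216.H651

open AS GM B64 B609 Vale.Agent.P216.H288 Vale.Agent.P216.H494 Vale.Agent.P216.L250

variable {M : Type} [MetricSpace M] [CompactSpace M] {G : GeoList M}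

section

variable {ρ : ℝ} (hρ : 0 < ρ) (hs : LS.UniqSeg M ρ)

include hρ hs in
/-- **regular levels** -/
theorem regHU (G : GeoList M) (k : Type) [Field k] (s t : ℝ) (h : s ≤ t) (h0 : 0 < s)
    (hc : ∀ x ∈ Icc s t, x ∉ Crit G.ℓ) (n : ℕ) :
    Function.Bijective (hres k (XL_mono (M := M) h) n) := by
  have hD := LS.descentStmt (Hol.triv : Hol M) G hρ hs
  have hb := (mkGSys Hol.triv G hD).res_bijective (k := k) h0 h hc
    ((mkGSys Hol.triv G hD).mono s t h) n
  have h1 : (fun x => hres k (XL_mono (M := M) h) n x) =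
      (phi G hD k s n) ∘ (AS.res ((mkGSys Hol.triv G hD).mono s t h) n) ∘
        (phi G hD k t n).symm := by
    funext x
    change _ = phi G hD k s n (AS.res _ n ((phi G hD k t n).symm x))
    rw [phi_res G hD h n, LinearEquiv.apply_symm_apply]
  change Function.Bijective (fun x => hres k (XL_mono (M := M) h) n x)
  rw [h1]
  exact (phi G hD k s n).bijective.comp (hb.comp (phi G hD k t n).symm.bijective)

include hρ hs in
/-- **finiteness** -/
theorem finHU (hLOC : LOC M) {d : ℕ}
    (e : M ≃ₜ Metric.sphere (0 : EuclideanSpace ℝ (Fin (d + 1))) 1) (G : GeoList M) (k : Type)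
    [Field k] (t : ℝ) (h0 : 0 < t) (ht : t ∉ Crit G.ℓ) :
    (∀ n, Module.Finite k (HU k (XL M t) n)) ∧
      ∃ N, ∀ n ≥ N, Subsingleton (HU k (XL M t) n) := by
  have hD := LS.descentStmt (Hol.triv : Hol M) G hρ hs
  have hL := GM.levelBoundK k (GM.f1 hρ hs) hLOC GM.tw Hol.triv G hD
  obtain ⟨h1, N, h2⟩ := finAtK k hL (baseFinK k G hD e) t h0 ht
  refine ⟨fun n => ?_, N, fun n hn => ?_⟩
  · have := h1 n
    exact Module.Finite.equiv (phi G hD k t n)
  · have := h2 n hn
    exact (phi G hD k t n).symm.injective.subsingleton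

include hρ hs in
/-- **bounded finite bars**: one constant for all levels and all degrees. -/
theorem barsHU (hLOC : LOC M) {d : ℕ}
    (e : M ≃ₜ Metric.sphere (0 : EuclideanSpace ℝ (Fin (d + 1))) 1) (G : GeoList M) (k : Type)
    [Field k] {B : ℝ} (hB : 0 < B)
    (hst : ∀ (n : ℕ) (s t : ℝ), 0 < s → ∀ (h : s ≤ s + B) (h' : s + B ≤ t),
      LinearMap.range (hres k (XL_mono (M := M) h) n) ≤
        LinearMap.range (hres k (XL_mono (M := M) (h.trans h')) n)) :
    ∃ K : ℕ, ∀ t : ℝ, 0 < t → t ∉ Crit G.ℓ → ∀ (T : ℝ) (h : t ≤ T), t + B ≤ T → ∀ m : ℕ,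
      ∑ n ∈ Finset.range m, (finrank k (HU k (XL M t) n) -
        finrank k (LinearMap.range (hres k (XL_mono (M := M) h) n))) ≤ K := by
  have hD := LS.descentStmt (Hol.triv : Hol M) G hρ hs
  have hL := GM.levelBoundK k (GM.f1 hρ hs) hLOC GM.tw Hol.triv G hD
  have hres_eq : ∀ (s t : ℝ) (h : s ≤ t) (n : ℕ),
      Submodule.map (phi G hD k s n).toLinearMap
        (LinearMap.range ((mkGSys Hol.triv G hD).rV k h n)) =
      LinearMap.range (hres k (XL_mono (M := M) h) n) := by
    intro s t h n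
    ext y
    constructor
    · rintro ⟨_, ⟨x, rfl⟩, rfl⟩
      exact ⟨phi G hD k t n x, (phi_res G hD h n x).symm⟩
    · rintro ⟨x, rfl⟩
      refine ⟨_, ⟨(phi G hD k t n).symm x, rfl⟩, ?_⟩
      have h1 := phi_res (k := k) G hD h n ((phi G hD k t n).symm x)
      rw [LinearEquiv.apply_symm_apply] at h1
      exact h1
  have hstab : (mkGSys Hol.triv G hD).StableBarsK k B := by
    intro s t h0 h h' n
    have h1 := hst n s t h0 h h'
    rw [← hres_eq s (s + B) h n, ← hres_eq s t (h.trans h') n] at h1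
    exact (Submodule.map_le_map_iff_of_injective (phi G hD k s n).injective _ _).1 h1
  obtain ⟨K, hK⟩ := (mkGSys Hol.triv G hD).bars_of_levelBoundK hL hB.le hstab
    (baseFinK k G hD e)
  refine ⟨K, fun t h0 ht T h hT m => ?_⟩
  refine le_of_eq_of_le ?_ (hK t h0 ht T h hT m)
  refine Finset.sum_congr rfl fun n _ => ?_
  rw [← hres_eq t T h n, LinearEquiv.finrank_map_eq]
  congr 1
  exact (phi G hD k t n).finrank_eq.symm

omit [CompactSpace M] in
/-- stable images from a spanning system -/
theorem stable_of_span {k : Type} [Field k] {B : ℝ}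
    (g : ∀ (n : ℕ) (t : ℝ), HU k (XL M t) n)
    (res_g : ∀ n s t (h : s ≤ t), hres k (XL_mono h) n (g n t) = g n s)
    (span : ∀ n t, 0 ≤ t → ∀ (h : XL M t ⊆ XL M (t + B)) (z : HU k (XL M (t + B)) n),
      ∃ c : k, hres k h n z = c • g n t) (n : ℕ) (s t : ℝ) (h0 : 0 < s) (h : s ≤ s + B)
    (h' : s + B ≤ t) :
    LinearMap.range (hres k (XL_mono (M := M) h) n) ≤
      LinearMap.range (hres k (XL_mono (M := M) (h.trans h')) n) := by
  rintro _ ⟨z, rfl⟩
  obtain ⟨c, hc⟩ := span n s h0.le (XL_mono h) z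
  exact ⟨c • g n t, by rw [map_smul, res_g n s t (h.trans h'), hc]⟩

end

end Vale.Agent.P216.H651
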